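import Vale.Agent.P011.H525.Cyc.NearForm

/-!
# A field generated by `E` and `L`
-/

open Module TensorProduct Polynomial

set_option linter.unusedSectionVars false

namespace Vale.Agent.P011.H525.Cyc

noncomputable section

/-- a field generated by `E` and `L` -/
theorem exists_cpt {K L E : Type} [Field K] [Field L] [Field E] [Algebra K L] [Algebra K E]
    [FiniteDimensional K L] [Algebra.IsSeparable K L] :
    ∃ (C : Type) (_ : Field C) (_ : Algebra E C) (_ : Algebra K C) (_ : IsScalarTower K E C)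
      (_ : L →ₐ[K] C), FiniteDimensional E C ∧ Algebra.IsSeparable E C := by
  haveI : Nontrivial (E ⊗[K] L) := inferInstance
  obtain ⟨I, hI⟩ := Ideal.exists_maximal (E ⊗[K] L)
  letI : Field ((E ⊗[K] L) ⧸ I) := Ideal.Quotient.field I
  let π : E ⊗[K] L →ₐ[E] (E ⊗[K] L) ⧸ I := Ideal.Quotient.mkₐ E I
  have hπ : Function.Surjective π := Ideal.Quotient.mkₐ_surjective E I
  let τ : L →ₐ[K] (E ⊗[K] L) ⧸ I :=
    (Ideal.Quotient.mkₐ K I).comp (Algebra.TensorProduct.includeRight : L →ₐ[K] E ⊗[K] L)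
  have hfin : FiniteDimensional E ((E ⊗[K] L) ⧸ I) :=
    Module.Finite.of_surjective π.toLinearMap hπ
  refine ⟨(E ⊗[K] L) ⧸ I, inferInstance, inferInstance, inferInstance, inferInstance, τ, hfin, ?_⟩
  have htop : IntermediateField.adjoin E (Set.range τ) = ⊤ := by
    rw [eq_top_iff]
    rintro y -
    obtain ⟨Y, rfl⟩ := hπ y
    induction Y using TensorProduct.induction_on with
    | zero => rw [map_zero]; exact zero_mem _
    | add x y hx hy => rw [map_add]; exact add_mem hx hy
    | tmul x l =>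
      have h1 : π (x ⊗ₜ[K] l) = algebraMap E _ x * τ l := by
        have h2 : x ⊗ₜ[K] l = algebraMap E (E ⊗[K] L) x * ((1 : E) ⊗ₜ[K] l) := by
          rw [Algebra.TensorProduct.algebraMap_apply, Algebra.TensorProduct.tmul_mul_tmul, mul_one,
            one_mul]
          rfl
        rw [h2, map_mul, AlgHom.commutes]
        rfl
      rw [h1]
      exact mul_mem (IntermediateField.algebraMap_mem _ _)
        (IntermediateField.subset_adjoin E _ ⟨l, rfl⟩)
  have hsep : Algebra.IsSeparable E (IntermediateField.adjoin E (Set.range τ)) := by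
    rw [IntermediateField.isSeparable_adjoin_iff_isSeparable]
    rintro _ ⟨l, rfl⟩
    have h1 : IsSeparable K (τ l) := by
      have h2 := Algebra.IsSeparable.isSeparable K l
      unfold IsSeparable at h2 ⊢
      rwa [minpoly.algHom_eq τ τ.injective]
    exact h1.tower_top E
  rw [htop] at hsep
  exact Algebra.IsSeparable.of_algHom E _ (IntermediateField.topEquiv.symm :
    ((E ⊗[K] L) ⧸ I) ≃ₐ[E] (⊤ : IntermediateField E ((E ⊗[K] L) ⧸ I))).toAlgHom

theorem unif {κ : Type} [Finite κ] {P : κ → ℝ → Prop}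
    (hmono : ∀ i a b, 0 < b → b ≤ a → P i a → P i b)
    (h : ∀ i, ∃ η : ℝ, 0 < η ∧ P i η) : ∃ η : ℝ, 0 < η ∧ ∀ i, P i η := by
  choose f hf hP using h
  rcases isEmpty_or_nonempty κ with hκ | hκ
  · exact ⟨1, one_pos, fun i => hκ.elim i⟩
  · obtain ⟨i₀, hi₀⟩ := Finite.exists_min f
    exact ⟨f i₀, hf i₀, fun i => hmono i _ _ (hf i₀) (hi₀ i) (hP i)⟩

end

end Vale.Agent.P011.H525.Cyc
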