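import Vale.Agent.P011.H525.Cyc.Cpt
import Vale.Agent.P011.H775.Odd.TopNorm
import Vale.Agent.P011.H73.Sp2
import Vale.Agent.P011.H698.Bd
import Vale.Agent.P011.Hey.Fin0

/-!
# The near form over function fields
-/

open Module TensorProduct Polynomial

set_option linter.unusedSectionVars false

namespace Vale.Agent.P011.H525.Cyc

open Vale.Agent.P011.H738 Vale.Agent.P011.H271 Vale.Agent.P011.H698
open Vale.Agent.P011.H271.S3 (Ab)
open Vale.Agent.P011.H775.Top

noncomputable section

/-- the absolute values of `T` -/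
def aT {k : Type} [Field k] (T : Finset (Place k)) : T → AbsoluteValue k ℝ := fun v => v.1.abv

theorem isPn_pn {k D : Type} [Field k] [DivisionRing D] [Algebra k D] {ι κ : Type} [Fintype ι]
    [Fintype κ] [Nonempty ι] (B : Basis κ k D) (a : ι → AbsoluteValue k ℝ) : IsPn (pn B a) where
  nonneg := pn_nonneg B a
  zero := pn_zero B a
  one := pn_one B a
  neg := pn_neg B a
  add := pn_add_le B a
  mul := pn_mul_le B a

section

variable {k K L D E : Type} [Field k] [GFF k] [Field K] [Algebra k K] [FiniteDimensional k K]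
  [Algebra.IsSeparable k K] [Field L] [Algebra K L] [FiniteDimensional K L]
  [Algebra.IsSeparable K L] [DivisionRing D] [Algebra K D] [Algebra k D] [IsScalarTower k K D]
  {N : ℕ} (B : Basis (Fin N) k D) (T : Finset (Place k)) [Nonempty T]

/-- linear maps to a field: small coordinates, small value -/
theorem lin_small {C : Type} [Field C] [GFF C] [Algebra k C] [FiniteDimensional k C]
    {V : Type} [AddCommGroup V] [Module k V] {N : ℕ} (B : Basis (Fin N) k V) (r : V →ₗ[k] C)
    {W : Place C} {v : Place k} (h : Ab W v) {η : ℝ} (hη : 0 < η) :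
    ∃ δ : ℝ, 0 < δ ∧ ∀ x : V, (∀ l, v.abv (B.repr x l) < δ) → W.abv (r x) < η := by
  have h1 : ∀ l : Fin N, ∃ δ : ℝ, 0 < δ ∧ ∀ t : k, v.abv t < δ →
      W.abv (algebraMap k C t) < η / (2 * (N + 1) * (1 + W.abv (r (B l)))) := by
    intro l
    have h2 := W.abv.nonneg (r (B l))
    exact h.small (by positivity)
  obtain ⟨δ, hδ, hδ'⟩ := unif (P := fun l δ => ∀ t : k, v.abv t < δ →
      W.abv (algebraMap k C t) < η / (2 * (N + 1) * (1 + W.abv (r (B l)))))
    (fun l a b _ hab ha t ht => ha t (ht.trans_le hab)) h1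
  refine ⟨δ, hδ, fun x hx => ?_⟩
  have h3 : r x = ∑ l, algebraMap k C (B.repr x l) * r (B l) := by
    conv_lhs => rw [← B.sum_repr x]
    rw [map_sum]
    exact Finset.sum_congr rfl fun l _ => by rw [map_smul, Algebra.smul_def]
  have h4 : W.abv (r x) ≤ ∑ _l : Fin N, η / (2 * (N + 1)) := by
    rw [h3]
    refine (AbsoluteValue.sum_le _ _ _).trans (Finset.sum_le_sum fun l _ => ?_)
    have h2 := W.abv.nonneg (r (B l))
    rw [map_mul]
    calc W.abv (algebraMap k C (B.repr x l)) * W.abv (r (B l))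
        ≤ η / (2 * (N + 1) * (1 + W.abv (r (B l)))) * (1 + W.abv (r (B l))) :=
          mul_le_mul (hδ' l _ (hx l)).le (by linarith) h2 (by positivity)
      _ = η / (2 * (N + 1)) := by field_simp
  have h5 : ∑ _l : Fin N, η / (2 * ((N : ℝ) + 1)) < η := by
    rw [Finset.sum_const, Finset.card_univ, Fintype.card_fin, nsmul_eq_mul]
    have h6 : (N : ℝ) * (η / (2 * (N + 1))) * 2 + η / (N + 1) = η := by field_simp
    have h7 : 0 < η / ((N : ℝ) + 1) := by positivity
    nlinarith
  exact h4.trans_lt h5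

/-- **the fields generated by `E` and `L` are admissible** -/
theorem adm [Field E] [Algebra K E] [FiniteDimensional K E] [Algebra.IsSeparable K E]
    (ι : E →ₐ[K] D) : Adm (L := L) (pn B (aT T)) ι := by
  classical
  obtain ⟨C, _, _, _, _, τ, hfC, hsC⟩ := exists_cpt (K := K) (L := L) (E := E)
  let _ : Algebra k E := ((algebraMap K E).comp (algebraMap k K)).toAlgebra
  have _ : IsScalarTower k K E := IsScalarTower.of_algebraMap_eq fun _ => rfl
  let _ : Algebra k C := ((algebraMap E C).comp (algebraMap k E)).toAlgebra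
  have _ : IsScalarTower k E C := IsScalarTower.of_algebraMap_eq fun _ => rfl
  have _ : FiniteDimensional k E := FiniteDimensional.trans k K E
  have _ : FiniteDimensional k C := FiniteDimensional.trans k E C
  have _ : Algebra.IsSeparable k E := Algebra.IsSeparable.trans k K E
  have _ : Algebra.IsSeparable k C := Algebra.IsSeparable.trans k E C
  have _ : GFF C := Hey.H63.gff_of_finite (k := k)
  let κ := {W : Place C // ∃ v ∈ T, Ab W v}
  have hκ : Finite κ := by
    have h1 : {W : Place C | ∃ v ∈ T, Ab W v} = ⋃ v ∈ T, {W : Place C | Ab W v} := by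
      ext W
      simp
    have h2 : {W : Place C | ∃ v ∈ T, Ab W v}.Finite := by
      rw [h1]
      exact T.finite_toSet.biUnion fun v _ => H73.Sp.above_finite v
    exact h2.to_subtype
  have _ : Fintype κ := Fintype.ofFinite κ
  have _ : Nonempty κ := by
    obtain ⟨v, hv⟩ := ‹Nonempty T›
    obtain ⟨W, hW⟩ := H73.Sp.exists_above (E := C) v
    exact ⟨⟨W, v, hv, hW⟩⟩
  let ιk : E →ₗ[k] D := (ι.restrictScalars k).toLinearMap
  have hιk : Function.Injective ιk := ι.injective
  let jk : E →ₗ[k] C := (IsScalarTower.toAlgHom k E C).toLinearMap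
  have hjk : Function.Injective jk := (algebraMap E C).injective
  obtain ⟨r₁, hr₁⟩ := ιk.exists_leftInverse_of_injective (LinearMap.ker_eq_bot.mpr hιk)
  obtain ⟨r₂, hr₂⟩ := jk.exists_leftInverse_of_injective (LinearMap.ker_eq_bot.mpr hjk)
  have h1B : 0 < sz B (aT T) (1 : D) := sz_pos B (aT T) one_ne_zero
  refine ⟨C, inferInstance, inferInstance, inferInstance, inferInstance, τ, κ, inferInstance,
    inferInstance, fun W => W.1.abv, fun η hη => ?_, fun δ hδ => ?_⟩
  · have h1 : ∀ W : κ, ∃ δ : ℝ, 0 < δ ∧ ∀ x : E, pn B (aT T) (ι x) < δ →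
        W.1.abv (algebraMap E C x) < η := by
      rintro ⟨W, v, hv, hW⟩
      obtain ⟨δ, hδ, h⟩ := lin_small B (jk.comp r₁) hW hη
      refine ⟨δ / sz B (aT T) (1 : D), by positivity, fun x hx => ?_⟩
      have h2 := h (ι x) fun l => ?_
      · have h3 : (jk.comp r₁) (ι x) = algebraMap E C x := by
          have h4 : r₁ (ιk x) = x := LinearMap.congr_fun hr₁ x
          change jk (r₁ (ιk x)) = _
          rw [h4]
          rfl
        rwa [h3] at h2
      · have h3 := coord_le B (aT T) (ι x) ⟨v, hv⟩ l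
        have h4 := sz_le_pn B (aT T) (ι x)
        rw [lt_div_iff₀ h1B] at hx
        exact (h3.trans h4).trans_lt hx
    exact unif (P := fun (W : κ) δ => ∀ x : E, pn B (aT T) (ι x) < δ →
      W.1.abv (algebraMap E C x) < η) (fun W a b _ hab ha x hx => ha x (hx.trans_le hab)) h1 |>.imp
      fun δ h => ⟨h.1, fun x hx W => h.2 W x hx⟩
  · let c := Module.finBasis k C
    set f : C →ₗ[k] D := ιk.comp r₂ with hf
    have hfx : ∀ x : E, f (algebraMap E C x) = ι x := fun x => by
      have h4 : r₂ (jk x) = x := LinearMap.congr_fun hr₂ x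
      change ιk (r₂ (jk x)) = _
      rw [h4]
      rfl
    set S : ℝ := ∑ j, pn B (aT T) (f (c j)) with hS
    have hS0 : 0 ≤ S := Finset.sum_nonneg fun j _ => pn_nonneg B _ _
    set γ : ℝ := δ / (2 * (S + 1)) with hγ
    have hγ0 : 0 < γ := by positivity
    have h1 : ∀ v : T, ∃ η : ℝ, 0 < η ∧ ∀ y : C, (∀ W : κ, W.1.abv y < η) →
        ∀ j, v.1.abv (c.repr y j) < γ := by
      intro v
      obtain ⟨η, hη⟩ := H73.Sp.coord_small (E := C) c v.1 hγ0
      obtain ⟨η', hη', h⟩ := unif (κ := κ)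
        (P := fun (W : κ) t => t ≤ W.1.abv (algebraMap k C η)) (fun W a b _ hab ha => hab.trans ha)
        (fun W => ⟨W.1.abv (algebraMap k C η), W.1.abv.pos ((_root_.map_ne_zero _).2 η.ne_zero), le_rfl⟩)
      exact ⟨η', hη', fun y hy => hη y fun w hw =>
        (hy ⟨w, v.1, v.2, hw⟩).trans_le (h ⟨w, v.1, v.2, hw⟩)⟩
    obtain ⟨η, hη, h⟩ := unif (P := fun (v : T) η => ∀ y : C, (∀ W : κ, W.1.abv y < η) →
      ∀ j, v.1.abv (c.repr y j) < γ)
      (fun v a b _ hab ha y hy => ha y fun W => (hy W).trans_le hab) h1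
    refine ⟨η, hη, fun x hx => ?_⟩
    have h2 : ι x = ∑ j, c.repr (algebraMap E C x) j • f (c j) := by
      rw [← hfx x]
      conv_lhs => rw [← c.sum_repr (algebraMap E C x)]
      rw [map_sum]
      exact Finset.sum_congr rfl fun j _ => map_smul _ _ _
    rw [h2]
    have h3 : pn B (aT T) (∑ j, c.repr (algebraMap E C x) j • f (c j)) ≤ γ * S := by
      refine ((isPn_pn B (aT T)).sum _ _).trans ?_
      rw [hS, Finset.mul_sum]
      refine Finset.sum_le_sum fun j _ => ?_
      exact pn_smul_le B (aT T) _ _ (fun v => (h v (algebraMap E C x) hx j).le) hγ0.le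
    have h4 : γ * S < δ := by
      have h5 : γ * (2 * (S + 1)) = δ := by
        rw [hγ]
        field_simp
      nlinarith
    exact h3.trans_lt h4

/-- **the near form over function fields**, in the letters `Sm` -/
theorem near_ff [IsGalois K L] {m : ℕ} (b : Basis (Fin m) K L) {σ : L ≃ₐ[K] L}
    (hσ : ∀ g : L ≃ₐ[K] L, ∃ i, i < m ∧ g = σ ^ i) {ε : ℝ} (hε : 0 < ε) :
    ∃ δ : ℝ, 0 < δ ∧ ∀ (E : Type) [Field E] [Algebra K E] [FiniteDimensional K E]
      [Algebra.IsSeparable K E] (ι : E →ₐ[K] D) (u : E),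
      (∀ v ∈ T, Sm B v δ (ι u - 1)) → (∃ y : Fin m → E, nfm b (algebraMap K E) y = u) →
      ∃ y : Fin m → E, nfm b (algebraMap K E) y = u ∧
        ∀ i, ∀ v ∈ T, Sm B v ε (ι (y i) - algebraMap K D (b.repr 1 i)) := by
  have hGK : GFF K := Hey.H63.gff_of_finite (k := k)
  have hinf : Infinite K := Hey.gff_infinite K
  have h1B : 0 < sz B (aT T) (1 : D) := sz_pos B (aT T) one_ne_zero
  obtain ⟨C, hC, hCm⟩ := exists_pn_le B (aT T)
  obtain ⟨δ, hδ, h⟩ := near_form b (σ := σ) (fun g => by
    obtain ⟨i, -, rfl⟩ := hσ g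
    exact Subgroup.npow_mem_zpowers σ i) (isPn_pn B (aT T))
    (show 0 < ε / sz B (aT T) (1 : D) by positivity)
  refine ⟨δ / C, by positivity, fun E _ _ _ _ ι u hu hy => ?_⟩
  have hu' : pn B (aT T) (ι u - 1) < δ := by
    refine (hCm _).trans_lt ?_
    rw [mul_comm, ← lt_div_iff₀ hC]
    exact (sz_lt_iff B (aT T) (by positivity)).mpr fun v l => hu v.1 v.2 l
  obtain ⟨y, hy1, hy2⟩ := h E ι (adm B T ι) u hu' hy
  refine ⟨y, hy1, fun i v hv l => ?_⟩
  have h3 := coord_le B (aT T) (ι (y i) - algebraMap K D (b.repr 1 i)) ⟨v, hv⟩ l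
  have h4 := sz_le_pn B (aT T) (ι (y i) - algebraMap K D (b.repr 1 i))
  have h5 := hy2 i
  rw [lt_div_iff₀ h1B] at h5
  exact (h3.trans h4).trans_lt h5

end

end

end Vale.Agent.P011.H525.Cyc
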