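import Vale.Agent.P011.H525.Cyc.FF
import Vale.Agent.P011.H176.Etale

/-!
# The norm theorem for `E ⊗ L` near one, over function fields

`L / K` is cyclic, `E` runs through the separable subfields of a division algebra `D` over `K`.
An element `u` of `E` near one at the places of `T` which is everywhere locally a norm from
`E ⊗ L` is the norm of an element near one; the neighbourhood does not depend on `E`.
-/

open Module TensorProduct Polynomial Topology

set_option linter.unusedSectionVars false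

namespace Vale.Agent.P011.H525.Cyc

open Vale.Agent.P011.H738 Vale.Agent.P011.H271 Vale.Agent.P011.H698
open Vale.Agent.P011.H775.Top

noncomputable section

variable {k K L D : Type} [Field k] [GFF k] [Field K] [Algebra k K] [FiniteDimensional k K]
  [Algebra.IsSeparable k K] [Field L] [Algebra K L] [FiniteDimensional K L]
  [IsGalois K L] [DivisionRing D] [Algebra K D] [Algebra k D] [IsScalarTower k K D]
  {N : ℕ} (B : Basis (Fin N) k D) (T : Finset (Place k)) [Nonempty T]

/-- **the norm theorem near one**, topological form -/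
theorem h3 {m : ℕ} (b : Basis (Fin m) K L) {σ : L ≃ₐ[K] L}
    (hσ : ∀ g : L ≃ₐ[K] L, ∃ i, i < m ∧ g = σ ^ i) :
    ∀ U ∈ @nhds D (topD B fun v : T => v.1.abv) 0,
      ∃ V ∈ @nhds D (topD B fun v : T => v.1.abv) 0,
      ∀ (E : Type) [Field E] [Algebra K E] [FiniteDimensional K E] [GFF E]
        [Algebra.IsSeparable K E] (ι : E →ₐ[K] D) (u : E), ι u - 1 ∈ V →
        (∀ w : Place E, ∃ y : Fin m → w.comp,
          (∑ i, y i • (Algebra.leftMulMatrix b (b i)).map
            ((algebraMap E w.comp).comp (algebraMap K E))).det = algebraMap E w.comp u) →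
        ∃ y : Fin m → E,
          (∑ i, y i • (Algebra.leftMulMatrix b (b i)).map (algebraMap K E)).det = u ∧
          ∀ i, ι (y i) - algebraMap K D (b.repr 1 i) ∈ U := by
  intro U hU
  have hGK : GFF K := Hey.H63.gff_of_finite (k := k)
  have hinf : Infinite K := Hey.gff_infinite K
  have hz : ∀ g : L ≃ₐ[K] L, g ∈ Subgroup.zpowers σ := fun g => by
    obtain ⟨i, -, rfl⟩ := hσ g
    exact Subgroup.npow_mem_zpowers σ i
  obtain ⟨ε, hε, hεU⟩ := (mem_nhds_iff_pn B (aT T)).mp hU
  obtain ⟨δ, hδ, h⟩ := near_form b hz (isPn_pn B (aT T)) hε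
  refine ⟨{x | pn B (aT T) (x - 0) < δ},
    (mem_nhds_iff_pn B (aT T)).mpr ⟨δ, hδ, fun x hx => hx⟩, fun E _ _ _ _ _ ι u hu hloc => ?_⟩
  have hu' : pn B (aT T) (ι u - 1) < δ := by
    have h1 : pn B (aT T) (ι u - 1 - 0) < δ := hu
    rwa [sub_zero] at h1
  obtain ⟨y, hy1, hy2⟩ := h E ι (adm B T ι) u hu'
    (H176.exists_nfm ⟨σ, hz⟩ b u hloc)
  exact ⟨y, hy1, fun i => hεU _ (by rw [sub_zero]; exact hy2 i)⟩

/-- **the norm theorem near one**, in the letters `Sm` -/
theorem h3_sm {m : ℕ} (b : Basis (Fin m) K L) {σ : L ≃ₐ[K] L}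
    (hσ : ∀ g : L ≃ₐ[K] L, ∃ i, i < m ∧ g = σ ^ i) {ε : ℝ} (hε : 0 < ε) :
    ∃ δ : ℝ, 0 < δ ∧ ∀ (E : Type) [Field E] [Algebra K E] [FiniteDimensional K E] [GFF E]
      [Algebra.IsSeparable K E] (ι : E →ₐ[K] D) (u : E), (∀ v ∈ T, Sm B v δ (ι u - 1)) →
      (∀ w : Place E, ∃ y : Fin m → w.comp,
        (∑ i, y i • (Algebra.leftMulMatrix b (b i)).map
          ((algebraMap E w.comp).comp (algebraMap K E))).det = algebraMap E w.comp u) →
      ∃ y : Fin m → E,
        (∑ i, y i • (Algebra.leftMulMatrix b (b i)).map (algebraMap K E)).det = u ∧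
        ∀ i, ∀ v ∈ T, Sm B v ε (ι (y i) - algebraMap K D (b.repr 1 i)) := by
  have hz : ∀ g : L ≃ₐ[K] L, g ∈ Subgroup.zpowers σ := fun g => by
    obtain ⟨i, -, rfl⟩ := hσ g
    exact Subgroup.npow_mem_zpowers σ i
  obtain ⟨δ, hδ, h⟩ := near_ff (D := D) B T b hσ hε
  exact ⟨δ, hδ, fun E _ _ _ _ _ ι u hu hloc => h E ι u hu (H176.exists_nfm ⟨σ, hz⟩ b u hloc)⟩

end

end Vale.Agent.P011.H525.Cyc
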