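import Vale.Agent.P011.H525.Cyc.Nfm

/-!
# Norms near one: the core

Let `Z`, `Y₀` be elements of `E ⊗ L` with `N Z * (1 + s) = N Y₀` and `s` small.  Then there is a
small `R` with `N (Z (1 + R)) = N Y₀`: explicit Hilbert 90 with a resolvent whose parameter runs
through a fixed finite set.
-/

open Module TensorProduct

set_option linter.unusedSectionVars false

namespace Vale.Agent.P011.H525.Cyc

noncomputable section

section vand

variable {K C : Type} [Field K] [Infinite K] [Field C] [Algebra K C] {ι γ : Type} [Fintype ι]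
  [Fintype γ]

/-- Vandermonde: one parameter out of a fixed finite set is good at all places. -/
theorem exists_good_t (w : ι → AbsoluteValue C ℝ) (m : ℕ) {κ₁ : ℝ} (hκ₁ : 0 < κ₁) :
    ∃ (F : Finset K) (κ : ℝ), 0 < κ ∧ ∀ β : γ → Fin m → C, (∀ g i, ∃ j, κ₁ ≤ w i (β g j)) →
      ∃ t ∈ F, ∀ g i, κ ≤ w i (∑ j : Fin m, (algebraMap K C t) ^ (j : ℕ) * β g j) := by
  classical
  set n : ℕ := Fintype.card (γ × ι) with hn
  let t : Fin (n * m + 1) → K := fun r => Infinite.natEmbedding K r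
  have ht : Function.Injective t := fun r s hrs => by
    have := (Infinite.natEmbedding K).injective hrs
    exact Fin.ext this
  set C₂ : ℝ := 1 + ∑ e : Fin m ↪ Fin (n * m + 1), ∑ i : ι, ∑ j : Fin m, ∑ l : Fin m,
    w i (algebraMap K C ((Matrix.vandermonde (t ∘ e))⁻¹ j l)) with hC₂
  have hnn : 0 ≤ ∑ e : Fin m ↪ Fin (n * m + 1), ∑ i : ι, ∑ j : Fin m, ∑ l : Fin m,
      w i (algebraMap K C ((Matrix.vandermonde (t ∘ e))⁻¹ j l)) :=
    Finset.sum_nonneg fun e _ => Finset.sum_nonneg fun i _ => Finset.sum_nonneg fun j _ =>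
      Finset.sum_nonneg fun l _ => (w i).nonneg _
  have hC₂1 : 1 ≤ C₂ := by rw [hC₂]; linarith
  have hle : ∀ (e : Fin m ↪ Fin (n * m + 1)) (i : ι) (j : Fin m),
      ∑ l : Fin m, w i (algebraMap K C ((Matrix.vandermonde (t ∘ e))⁻¹ j l)) ≤ C₂ := by
    intro e i j
    have h1 : ∑ l : Fin m, w i (algebraMap K C ((Matrix.vandermonde (t ∘ e))⁻¹ j l)) ≤
        ∑ j : Fin m, ∑ l : Fin m, w i (algebraMap K C ((Matrix.vandermonde (t ∘ e))⁻¹ j l)) :=
      Finset.single_le_sum (f := fun j => ∑ l : Fin m,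
        w i (algebraMap K C ((Matrix.vandermonde (t ∘ e))⁻¹ j l)))
        (fun j _ => Finset.sum_nonneg fun l _ => (w i).nonneg _) (Finset.mem_univ j)
    have h2 : ∑ j : Fin m, ∑ l : Fin m, w i (algebraMap K C
          ((Matrix.vandermonde (t ∘ e))⁻¹ j l)) ≤ ∑ i : ι, ∑ j : Fin m, ∑ l : Fin m,
          w i (algebraMap K C ((Matrix.vandermonde (t ∘ e))⁻¹ j l)) :=
      Finset.single_le_sum (f := fun i => ∑ j : Fin m, ∑ l : Fin m,
        w i (algebraMap K C ((Matrix.vandermonde (t ∘ e))⁻¹ j l)))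
        (fun i _ => Finset.sum_nonneg fun j _ => Finset.sum_nonneg fun l _ => (w i).nonneg _)
        (Finset.mem_univ i)
    have h3 : ∑ i : ι, ∑ j : Fin m, ∑ l : Fin m,
          w i (algebraMap K C ((Matrix.vandermonde (t ∘ e))⁻¹ j l)) ≤
          ∑ e : Fin m ↪ Fin (n * m + 1), ∑ i : ι, ∑ j : Fin m, ∑ l : Fin m,
          w i (algebraMap K C ((Matrix.vandermonde (t ∘ e))⁻¹ j l)) :=
      Finset.single_le_sum (f := fun e : Fin m ↪ Fin (n * m + 1) => ∑ i : ι, ∑ j : Fin m,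
        ∑ l : Fin m, w i (algebraMap K C ((Matrix.vandermonde (t ∘ e))⁻¹ j l)))
        (fun e _ => Finset.sum_nonneg fun i _ => Finset.sum_nonneg fun j _ =>
          Finset.sum_nonneg fun l _ => (w i).nonneg _) (Finset.mem_univ e)
    rw [hC₂]
    linarith
  have hκ : 0 < κ₁ / (2 * C₂) := by positivity
  refine ⟨Finset.univ.image t, κ₁ / (2 * C₂), hκ, fun β hβ => ?_⟩
  by_contra hcon
  push Not at hcon
  have h1 : ∀ r : Fin (n * m + 1), ∃ p : γ × ι,
      w p.2 (∑ j : Fin m, (algebraMap K C (t r)) ^ (j : ℕ) * β p.1 j) < κ₁ / (2 * C₂) := by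
    intro r
    obtain ⟨g, i, h⟩ := hcon (t r) (Finset.mem_image_of_mem t (Finset.mem_univ r))
    exact ⟨(g, i), h⟩
  choose f hf using h1
  obtain ⟨p, hp⟩ := Fintype.exists_lt_card_fiber_of_mul_lt_card (f := f) (n := m)
    (by rw [Fintype.card_fin, ← hn]; omega)
  set S : Finset (Fin (n * m + 1)) := Finset.univ.filter fun r => f r = p with hS
  let e : Fin m ↪ Fin (n * m + 1) :=
    (Fin.castLEEmb (show m ≤ S.card from hp.le)).trans (S.orderEmbOfFin rfl).toEmbedding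
  have he : ∀ l, f (e l) = p := fun l => by
    have h2 : e l ∈ S := S.orderEmbOfFin_mem rfl _
    exact (Finset.mem_filter.mp h2).2
  have hV : (Matrix.vandermonde (t ∘ e)).det ≠ 0 :=
    Matrix.det_vandermonde_ne_zero_iff.mpr (ht.comp e.injective)
  obtain ⟨j, hj⟩ := hβ p.1 p.2
  have h3 : β p.1 j = ∑ l : Fin m, algebraMap K C ((Matrix.vandermonde (t ∘ e))⁻¹ j l) *
      ∑ r : Fin m, (algebraMap K C (t (e l))) ^ (r : ℕ) * β p.1 r := by
    have h4 : (Matrix.vandermonde (t ∘ e))⁻¹ * Matrix.vandermonde (t ∘ e) = 1 :=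
      Matrix.nonsing_inv_mul _ (isUnit_iff_ne_zero.mpr hV)
    simp_rw [Finset.mul_sum, ← mul_assoc]
    rw [Finset.sum_comm]
    simp_rw [← Finset.sum_mul]
    have h5 : ∀ r : Fin m, ∑ l : Fin m, algebraMap K C ((Matrix.vandermonde (t ∘ e))⁻¹ j l) *
        (algebraMap K C (t (e l))) ^ (r : ℕ) = if j = r then 1 else 0 := by
      intro r
      have h6 := congrFun (congrFun h4 j) r
      rw [Matrix.mul_apply, Matrix.one_apply] at h6
      have h7 := congrArg (algebraMap K C) h6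
      rw [map_sum] at h7
      refine Eq.trans (Finset.sum_congr rfl fun l _ => ?_) (h7.trans ?_)
      · rw [map_mul, Matrix.vandermonde_apply, map_pow]
        rfl
      · split_ifs <;> simp
    simp_rw [h5]
    simp
  have h8 : w p.2 (β p.1 j) ≤ C₂ * (κ₁ / (2 * C₂)) := by
    rw [h3]
    refine ((w p.2).sum_le _ _).trans ?_
    refine le_trans (Finset.sum_le_sum fun l _ => ?_)
      ((Finset.sum_mul _ _ _).symm.le.trans (mul_le_mul_of_nonneg_right (hle e p.2 j) hκ.le))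
    rw [map_mul]
    refine mul_le_mul_of_nonneg_left ?_ ((w p.2).nonneg _)
    have h9 := hf (e l)
    rw [he l] at h9
    exact h9.le
  have h9 : C₂ * (κ₁ / (2 * C₂)) = κ₁ / 2 := by
    have : C₂ ≠ 0 := by positivity
    field_simp
  rw [h9] at h8
  linarith

end vand

section resolvent

variable {K L E C : Type} [Field K] [Field L] [Field E] [Field C] [Algebra K L] [Algebra K E]
  [Algebra E C] [Algebra K C] [IsScalarTower K E C] {m : ℕ} (b : Basis (Fin m) K L)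
  (τ : L →ₐ[K] C) [IsGalois K L] [FiniteDimensional K L] (σ : L ≃ₐ[K] L)

theorem sM_one (Y : E ⊗[K] L) : sM E (1 : L ≃ₐ[K] L) Y = Y := by
  induction Y using TensorProduct.induction_on with
  | zero => simp
  | tmul x l => rw [sM_tmul]; rfl
  | add x y hx hy => rw [map_add, hx, hy]

theorem sM_mul (g h : L ≃ₐ[K] L) (Y : E ⊗[K] L) : sM E (g * h) Y = sM E g (sM E h Y) := by
  induction Y using TensorProduct.induction_on with
  | zero => simp
  | tmul x l => rw [sM_tmul, sM_tmul, sM_tmul]; rfl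
  | add x y hx hy => rw [map_add, map_add, map_add, hx, hy]

/-- the partial products -/
def XX (x : E ⊗[K] L) (i : ℕ) : E ⊗[K] L := ∏ j ∈ Finset.range i, sM E (σ ^ j) x

/-- the resolvent -/
def BB (x c : E ⊗[K] L) : E ⊗[K] L :=
  ∑ i ∈ Finset.range (orderOf σ), XX σ x i * sM E (σ ^ i) c

theorem XX_zero (x : E ⊗[K] L) : XX σ x 0 = 1 := by
  rw [XX, Finset.prod_range_zero]

theorem XX_succ (x : E ⊗[K] L) (i : ℕ) : x * sM E σ (XX σ x i) = XX σ x (i + 1) := by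
  rw [XX, XX, Finset.prod_range_succ', map_prod, pow_zero, sM_one, mul_comm]
  congr 1
  refine Finset.prod_congr rfl fun j _ => ?_
  rw [← sM_mul, pow_succ']

theorem BB_eq (x c : E ⊗[K] L) :
    x * sM E σ (BB σ x c) = BB σ x c - c + XX σ x (orderOf σ) * c := by
  have h1 : x * sM E σ (BB σ x c) =
      ∑ i ∈ Finset.range (orderOf σ), XX σ x (i + 1) * sM E (σ ^ (i + 1)) c := by
    rw [BB, map_sum, Finset.mul_sum]
    refine Finset.sum_congr rfl fun i _ => ?_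
    rw [map_mul, ← mul_assoc, XX_succ, ← sM_mul, pow_succ']
  have h2 := Finset.sum_range_succ (fun i => XX σ x i * sM E (σ ^ i) c) (orderOf σ)
  have h3 := Finset.sum_range_succ' (fun i => XX σ x i * sM E (σ ^ i) c) (orderOf σ)
  rw [pow_orderOf_eq_one, sM_one] at h2
  rw [XX_zero, pow_zero, sM_one, one_mul] at h3
  rw [h1]
  have h4 : BB σ x c = ∑ i ∈ Finset.range (orderOf σ), XX σ x i * sM E (σ ^ i) c := rfl
  rw [h4]
  linear_combination h2 - h3

theorem prod_gal {R : Type} [CommMonoid R] (hσ : ∀ g : L ≃ₐ[K] L, g ∈ Subgroup.zpowers σ)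
    (f : (L ≃ₐ[K] L) → R) : ∏ i ∈ Finset.range (orderOf σ), f (σ ^ i) = ∏ g, f g := by
  classical
  rw [← IsCyclic.image_range_orderOf hσ, Finset.prod_image]
  intro i hi j hj hij
  exact pow_injOn_Iio_orderOf (Finset.mem_range.mp hi) (Finset.mem_range.mp hj) hij

include τ in
theorem XX_order (hσ : ∀ g : L ≃ₐ[K] L, g ∈ Subgroup.zpowers σ) (Y : E ⊗[K] L) :
    XX σ Y (orderOf σ) = algebraMap E (E ⊗[K] L) (Algebra.norm E Y) := by
  refine pg_ext τ fun g => ?_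
  rw [AlgHom.commutes, norm_eq_prod τ, XX, map_prod]
  simp_rw [pg_sM]
  rw [prod_gal σ hσ (fun h => pg τ (g * h) Y)]
  exact Equiv.prod_comp (Equiv.mulLeft g) (fun h => pg τ h Y)

include τ in
theorem exists_inv (hσ : ∀ g : L ≃ₐ[K] L, g ∈ Subgroup.zpowers σ) {Y : E ⊗[K] L}
    (h : Algebra.norm E Y ≠ 0) : ∃ Y', Y * Y' = 1 := by
  have h1 := XX_order τ σ hσ Y
  have h2 : orderOf σ = (orderOf σ - 1) + 1 := by
    have : 0 < orderOf σ := orderOf_pos σ
    omega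
  rw [h2, ← XX_succ] at h1
  refine ⟨sM E σ (XX σ Y (orderOf σ - 1)) * algebraMap E (E ⊗[K] L) (Algebra.norm E Y)⁻¹, ?_⟩
  rw [← mul_assoc, h1, ← map_mul, mul_inv_cancel₀ h, map_one]

end resolvent

section core

variable {K L E C : Type} [Field K] [Field L] [Field E] [Field C] [Algebra K L] [Algebra K E]
  [Algebra E C] [Algebra K C] [IsScalarTower K E C]
  (τ : L →ₐ[K] C) [IsGalois K L] [FiniteDimensional K L] (σ : L ≃ₐ[K] L)

theorem pg_BB (g : L ≃ₐ[K] L) (x : E ⊗[K] L) (l : L) :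
    pg τ g (BB σ x (1 ⊗ₜ[K] l)) =
      ∑ i ∈ Finset.range (orderOf σ), pg τ g (XX σ x i) * τ (g ((σ ^ i) l)) := by
  rw [BB, map_sum]
  refine Finset.sum_congr rfl fun i _ => ?_
  rw [map_mul, sM_tmul, pg_tmul, map_one, one_mul]

open Classical in
/-- the value at one of the resolvent is recovered from the resolvents of the basis -/
theorem dual_sum {m : ℕ} (b : Basis (Fin m) K L) {μ : Fin m → L}
    (hμ : ∀ g : L ≃ₐ[K] L, ∑ j, μ j * g (b j) = if g = 1 then 1 else 0)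
    (x : E ⊗[K] L) (g : L ≃ₐ[K] L) :
    ∑ j, τ (g (μ j)) * pg τ g (BB σ x (1 ⊗ₜ[K] b j)) = 1 := by
  have h1 : ∀ j, τ (g (μ j)) * pg τ g (BB σ x (1 ⊗ₜ[K] b j)) =
      ∑ i ∈ Finset.range (orderOf σ),
        pg τ g (XX σ x i) * (τ (g (μ j)) * τ (g ((σ ^ i) (b j)))) := by
    intro j
    rw [pg_BB, Finset.mul_sum]
    exact Finset.sum_congr rfl fun i _ => by ring
  simp_rw [h1]
  rw [Finset.sum_comm]
  have h2 : ∀ i ∈ Finset.range (orderOf σ), ∑ j, pg τ g (XX σ x i) *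
      (τ (g (μ j)) * τ (g ((σ ^ i) (b j)))) = if i = 0 then 1 else 0 := by
    intro i hi
    rw [← Finset.mul_sum]
    have h3 : ∑ j, τ (g (μ j)) * τ (g ((σ ^ i) (b j))) =
        τ (g (∑ j, μ j * (σ ^ i) (b j))) := by
      rw [map_sum, map_sum]
      exact Finset.sum_congr rfl fun j _ => by rw [map_mul, map_mul]
    rw [h3, hμ]
    by_cases hi0 : i = 0
    · subst hi0
      rw [pow_zero, if_pos rfl, if_pos rfl, map_one, map_one, XX_zero, map_one, mul_one]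
    · rw [if_neg hi0, if_neg, map_zero, map_zero, mul_zero]
      exact pow_ne_one_of_lt_orderOf hi0 (Finset.mem_range.mp hi)
  rw [Finset.sum_congr rfl h2, Finset.sum_ite_eq' (Finset.range (orderOf σ)) 0, if_pos]
  exact Finset.mem_range.mpr (orderOf_pos σ)

/-- the resolvents of the basis are not all small -/
theorem exists_low {ι : Type} [Fintype ι] (w : ι → AbsoluteValue C ℝ) {m : ℕ}
    (b : Basis (Fin m) K L) :
    ∃ κ₁ : ℝ, 0 < κ₁ ∧ ∀ (x : E ⊗[K] L) (g : L ≃ₐ[K] L) (i : ι), ∃ j,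
      κ₁ ≤ w i (pg τ g (BB σ x (1 ⊗ₜ[K] b j))) := by
  classical
  obtain ⟨μ, hμ⟩ := exists_dual b
  set C₁ : ℝ := 1 + ∑ g : L ≃ₐ[K] L, ∑ i : ι, ∑ j, w i (τ (g (μ j))) with hC₁
  have hC₁nn : 0 ≤ ∑ g : L ≃ₐ[K] L, ∑ i : ι, ∑ j, w i (τ (g (μ j))) :=
    Finset.sum_nonneg fun g _ => Finset.sum_nonneg fun i _ => Finset.sum_nonneg fun j _ =>
      (w i).nonneg _
  have hC₁1 : 1 ≤ C₁ := by rw [hC₁]; linarith
  have hC₁le : ∀ (g : L ≃ₐ[K] L) (i : ι), ∑ j, w i (τ (g (μ j))) ≤ C₁ := by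
    intro g i
    have h1 : ∑ j, w i (τ (g (μ j))) ≤ ∑ i : ι, ∑ j, w i (τ (g (μ j))) :=
      Finset.single_le_sum (f := fun i => ∑ j, w i (τ (g (μ j))))
        (fun i _ => Finset.sum_nonneg fun j _ => (w i).nonneg _) (Finset.mem_univ i)
    have h2 : ∑ i : ι, ∑ j, w i (τ (g (μ j))) ≤
        ∑ g : L ≃ₐ[K] L, ∑ i : ι, ∑ j, w i (τ (g (μ j))) :=
      Finset.single_le_sum (f := fun g : L ≃ₐ[K] L => ∑ i : ι, ∑ j, w i (τ (g (μ j))))
        (fun g _ => Finset.sum_nonneg fun i _ => Finset.sum_nonneg fun j _ => (w i).nonneg _)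
        (Finset.mem_univ g)
    rw [hC₁]
    linarith
  have hκ₁ : 0 < 1 / (2 * C₁) := by positivity
  refine ⟨1 / (2 * C₁), hκ₁, fun x g i => ?_⟩
  by_contra hcon
  push Not at hcon
  have h1 : (1 : ℝ) ≤ C₁ * (1 / (2 * C₁)) := by
    calc (1 : ℝ) = w i (∑ j, τ (g (μ j)) * pg τ g (BB σ x (1 ⊗ₜ[K] b j))) := by
          rw [dual_sum τ σ b hμ x g, map_one]
      _ ≤ ∑ j, w i (τ (g (μ j)) * pg τ g (BB σ x (1 ⊗ₜ[K] b j))) := (w i).sum_le _ _
      _ ≤ ∑ j, w i (τ (g (μ j))) * (1 / (2 * C₁)) := by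
          refine Finset.sum_le_sum fun j _ => ?_
          rw [map_mul]
          exact mul_le_mul_of_nonneg_left (hcon j).le ((w i).nonneg _)
      _ = (∑ j, w i (τ (g (μ j)))) * (1 / (2 * C₁)) := (Finset.sum_mul _ _ _).symm
      _ ≤ C₁ * (1 / (2 * C₁)) := mul_le_mul_of_nonneg_right (hC₁le g i) hκ₁.le
  have h2 : C₁ * (1 / (2 * C₁)) = 1 / 2 := by
    have : C₁ ≠ 0 := by positivity
    field_simp
  rw [h2] at h1
  linarith

theorem pg_BB_sum {m : ℕ} (b : Basis (Fin m) K L) (x : E ⊗[K] L) (g : L ≃ₐ[K] L) (t : K) :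
    pg τ g (BB σ x (1 ⊗ₜ[K] (∑ j : Fin m, t ^ (j : ℕ) • b j))) =
      ∑ j : Fin m, (algebraMap K C t) ^ (j : ℕ) * pg τ g (BB σ x (1 ⊗ₜ[K] b j)) := by
  rw [pg_BB]
  have h1 : ∀ i : ℕ, τ (g ((σ ^ i) (∑ j : Fin m, t ^ (j : ℕ) • b j))) =
      ∑ j : Fin m, (algebraMap K C t) ^ (j : ℕ) * τ (g ((σ ^ i) (b j))) := by
    intro i
    simp only [map_sum, map_smul]
    refine Finset.sum_congr rfl fun j _ => ?_
    rw [Algebra.smul_def, map_pow]
  simp_rw [h1, Finset.mul_sum]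
  rw [Finset.sum_comm]
  refine Finset.sum_congr rfl fun j _ => ?_
  rw [pg_BB, Finset.mul_sum]
  exact Finset.sum_congr rfl fun i _ => by ring

/-- **a good resolvent parameter out of a fixed finite set** -/
theorem exists_good_c [Infinite K] {ι : Type} [Fintype ι] (w : ι → AbsoluteValue C ℝ) :
    ∃ (F : Finset L) (κ : ℝ), 0 < κ ∧ ∀ x : E ⊗[K] L, ∃ c ∈ F, ∀ g i,
      κ ≤ w i (pg τ g (BB σ x (1 ⊗ₜ[K] c))) := by
  classical
  obtain ⟨b⟩ : Nonempty (Basis (Fin (finrank K L)) K L) := ⟨Module.finBasis K L⟩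
  obtain ⟨κ₁, hκ₁, hlow⟩ := exists_low (E := E) τ σ w b
  obtain ⟨F, κ, hκ, hF⟩ := exists_good_t (K := K) (γ := L ≃ₐ[K] L) w (finrank K L) hκ₁
  refine ⟨F.image fun t => ∑ j : Fin (finrank K L), t ^ (j : ℕ) • b j, κ, hκ, fun x => ?_⟩
  obtain ⟨t, htF, ht⟩ := hF (fun g j => pg τ g (BB σ x (1 ⊗ₜ[K] b j))) (hlow x)
  refine ⟨_, Finset.mem_image_of_mem _ htF, fun g i => ?_⟩
  rw [pg_BB_sum]
  exact ht g i

theorem norm_ne_zero_of_low {ι : Type} [Nonempty ι] (w : ι → AbsoluteValue C ℝ) {κ : ℝ}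
    (hκ : 0 < κ) {B : E ⊗[K] L} (hB : ∀ g i, κ ≤ w i (pg τ g B)) : Algebra.norm E B ≠ 0 := by
  intro h
  have h1 := norm_eq_prod τ B
  rw [h, map_zero] at h1
  obtain ⟨g, -, hg⟩ := Finset.prod_eq_zero_iff.mp h1.symm
  obtain ⟨i⟩ := ‹Nonempty ι›
  have h2 := hB g i
  rw [hg, map_zero] at h2
  linarith

include τ in
/-- the algebra of the core -/
theorem core_alg (hσ : ∀ g : L ≃ₐ[K] L, g ∈ Subgroup.zpowers σ) {Y₀ Z x : E ⊗[K] L} {s : E}
    (hxZ : Z * x = Y₀) (hnx : Algebra.norm E x = 1 + s) {c : L} {B' : E ⊗[K] L}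
    (hB' : BB σ x (1 ⊗ₜ[K] c) * B' = 1) :
    Algebra.norm E (Z * (1 + algebraMap E (E ⊗[K] L) s * (1 ⊗ₜ[K] c) * B')) =
      Algebra.norm E Y₀ := by
  have hres : x * sM E σ (BB σ x (1 ⊗ₜ[K] c)) =
      BB σ x (1 ⊗ₜ[K] c) + algebraMap E (E ⊗[K] L) s * (1 ⊗ₜ[K] c) := by
    rw [BB_eq, XX_order τ σ hσ, hnx, map_add, map_one]
    ring
  generalize hB : BB σ x (1 ⊗ₜ[K] c) = B at hres hB'
  have hnB : Algebra.norm E B ≠ 0 := by
    intro h
    have h1 := congrArg (Algebra.norm E) hB'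
    rw [map_mul, h, zero_mul, map_one] at h1
    exact zero_ne_one h1
  refine mul_right_cancel₀ hnB ?_
  rw [← map_mul]
  have h1 : Z * (1 + algebraMap E (E ⊗[K] L) s * (1 ⊗ₜ[K] c) * B') * B = Y₀ * sM E σ B := by
    linear_combination Z * algebraMap E (E ⊗[K] L) s * (1 ⊗ₜ[K] c) * hB' - Z * hres +
      sM E σ B * hxZ
  rw [h1, map_mul, norm_sM]

/-- **the core of the near form** -/
theorem near_core [Infinite K] {ι : Type} [Fintype ι] [Nonempty ι] (w : ι → AbsoluteValue C ℝ)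
    (hσ : ∀ g : L ≃ₐ[K] L, g ∈ Subgroup.zpowers σ) {δ : ℝ} (hδ : 0 < δ) :
    ∃ η : ℝ, 0 < η ∧ ∀ (Y₀ Z : E ⊗[K] L) (s : E),
      Algebra.norm E Z * (1 + s) = Algebra.norm E Y₀ → Algebra.norm E Y₀ ≠ 0 →
      (∀ i, w i (algebraMap E C s) < η) →
      ∃ R : E ⊗[K] L, (∀ g i, w i (pg τ g R) < δ) ∧
        Algebra.norm E (Z * (1 + R)) = Algebra.norm E Y₀ := by
  classical
  obtain ⟨F, κ, hκ, hF⟩ := exists_good_c (E := E) τ σ w
  set C₃ : ℝ := 1 + ∑ c ∈ F, ∑ g : L ≃ₐ[K] L, ∑ i : ι, w i (τ (g c)) with hC₃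
  have hC₃nn : 0 ≤ ∑ c ∈ F, ∑ g : L ≃ₐ[K] L, ∑ i : ι, w i (τ (g c)) :=
    Finset.sum_nonneg fun g _ => Finset.sum_nonneg fun i _ => Finset.sum_nonneg fun j _ =>
      (w j).nonneg _
  have hC₃1 : 1 ≤ C₃ := by rw [hC₃]; linarith
  have hC₃le : ∀ c ∈ F, ∀ (g : L ≃ₐ[K] L) (i : ι), w i (τ (g c)) ≤ C₃ := by
    intro c hc g i
    have h1 : w i (τ (g c)) ≤ ∑ i : ι, w i (τ (g c)) :=
      Finset.single_le_sum (f := fun i => w i (τ (g c)))
        (fun i _ => (w i).nonneg _) (Finset.mem_univ i)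
    have h2 : ∑ i : ι, w i (τ (g c)) ≤ ∑ g : L ≃ₐ[K] L, ∑ i : ι, w i (τ (g c)) :=
      Finset.single_le_sum (f := fun g : L ≃ₐ[K] L => ∑ i : ι, w i (τ (g c)))
        (fun g _ => Finset.sum_nonneg fun i _ => (w i).nonneg _) (Finset.mem_univ g)
    have h3 : ∑ g : L ≃ₐ[K] L, ∑ i : ι, w i (τ (g c)) ≤
        ∑ c ∈ F, ∑ g : L ≃ₐ[K] L, ∑ i : ι, w i (τ (g c)) :=
      Finset.single_le_sum (f := fun c => ∑ g : L ≃ₐ[K] L, ∑ i : ι, w i (τ (g c)))
        (fun t _ => Finset.sum_nonneg fun g _ => Finset.sum_nonneg fun i _ => (w i).nonneg _) hc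
    rw [hC₃]
    linarith
  refine ⟨δ * κ / C₃, by positivity, fun Y₀ Z s hZ hY₀ hs => ?_⟩
  have hnZ : Algebra.norm E Z ≠ 0 := fun h => hY₀ (by rw [← hZ, h, zero_mul])
  obtain ⟨Z', hZ'⟩ := exists_inv τ σ hσ hnZ
  have hxZ : Z * (Y₀ * Z') = Y₀ := by linear_combination Y₀ * hZ'
  have hnx : Algebra.norm E (Y₀ * Z') = 1 + s := by
    have h1 : Algebra.norm E Z * Algebra.norm E (Y₀ * Z') = Algebra.norm E Z * (1 + s) := by
      rw [← map_mul, hxZ, hZ]
    exact mul_left_cancel₀ hnZ h1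
  generalize Y₀ * Z' = x at hxZ hnx
  obtain ⟨c, hcF, hBlow⟩ := hF x
  obtain ⟨B', hB'⟩ := exists_inv τ σ hσ (norm_ne_zero_of_low τ w hκ hBlow)
  refine ⟨algebraMap E (E ⊗[K] L) s * (1 ⊗ₜ[K] c) * B', fun g i => ?_,
    core_alg τ σ hσ hxZ hnx hB'⟩
  have h1 : pg τ g (BB σ x (1 ⊗ₜ[K] c)) * pg τ g B' = 1 := by rw [← map_mul, hB', map_one]
  have h2 : w i (pg τ g (BB σ x (1 ⊗ₜ[K] c))) * w i (pg τ g B') = 1 := by
    rw [← map_mul, h1, map_one]
  have h3 := hBlow g i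
  have h4 : w i (pg τ g B') ≤ 1 / κ := by
    rw [le_div_iff₀ hκ]
    calc w i (pg τ g B') * κ ≤ w i (pg τ g B') * w i (pg τ g (BB σ x (1 ⊗ₜ[K] c))) :=
          mul_le_mul_of_nonneg_left h3 ((w i).nonneg _)
      _ = 1 := by rw [mul_comm, h2]
  have h6 : pg τ g (algebraMap E (E ⊗[K] L) s * (1 ⊗ₜ[K] c) * B') =
      algebraMap E C s * τ (g c) * pg τ g B' := by
    rw [map_mul, map_mul, AlgHom.commutes, pg_tmul, map_one, one_mul]
  rw [h6, map_mul, map_mul]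
  have h5 : w i (algebraMap E C s) * w i (τ (g c)) < δ * κ := by
    calc w i (algebraMap E C s) * w i (τ (g c)) ≤ w i (algebraMap E C s) * C₃ :=
          mul_le_mul_of_nonneg_left (hC₃le c hcF g i) ((w i).nonneg _)
      _ < δ * κ / C₃ * C₃ := mul_lt_mul_of_pos_right (hs i) (by positivity)
      _ = δ * κ := by
          have : C₃ ≠ 0 := by positivity
          field_simp
  calc w i (algebraMap E C s) * w i (τ (g c)) * w i (pg τ g B')
      ≤ w i (algebraMap E C s) * w i (τ (g c)) * (1 / κ) :=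
        mul_le_mul_of_nonneg_left h4 (mul_nonneg ((w i).nonneg _) ((w i).nonneg _))
    _ < δ * κ * (1 / κ) := mul_lt_mul_of_pos_right h5 (by positivity)
    _ = δ := by field_simp

end core

end

end Vale.Agent.P011.H525.Cyc
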