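import Vale.Agent.P011.H525.Cyc.NearCore

/-!
# Norms near one, uniformly in the subfields of a division algebra

`p` is a submultiplicative norm on the division algebra `D` over `K`.  For `u` near one in a
subfield `E` of `D` which is a norm from `E ⊗ L`, there is `Y` near one in `E ⊗ L` with norm `u`;
the radius does not depend on `E`.
-/

open Module TensorProduct Polynomial

set_option linter.unusedSectionVars false

namespace Vale.Agent.P011.H525.Cyc

noncomputable section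

/-- a submultiplicative norm -/
structure IsPn {D : Type} [DivisionRing D] (p : D → ℝ) : Prop where
  nonneg : ∀ x, 0 ≤ p x
  zero : p 0 = 0
  one : p 1 = 1
  neg : ∀ x, p (-x) = p x
  add : ∀ x y, p (x + y) ≤ p x + p y
  mul : ∀ x y, p (x * y) ≤ p x * p y

section pn

variable {D : Type} [DivisionRing D] {p : D → ℝ} (hp : IsPn p)

include hp

theorem IsPn.sum {η : Type} (s : Finset η) (f : η → D) : p (∑ j ∈ s, f j) ≤ ∑ j ∈ s, p (f j) := by
  classical
  induction s using Finset.induction_on with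
  | empty => rw [Finset.sum_empty, Finset.sum_empty, hp.zero]
  | insert a s ha ih =>
    rw [Finset.sum_insert ha, Finset.sum_insert ha]
    exact (hp.add _ _).trans (add_le_add le_rfl ih)

theorem IsPn.pow (x : D) (n : ℕ) : p (x ^ n) ≤ p x ^ n := by
  induction n with
  | zero => rw [pow_zero, pow_zero, hp.one]
  | succ n ih =>
    rw [pow_succ, pow_succ]
    exact (hp.mul _ _).trans (mul_le_mul_of_nonneg_right ih (hp.nonneg _))

theorem IsPn.inv {x : D} (hx : p x ≤ 1 / 2) : 1 + x ≠ 0 ∧ p (1 + x)⁻¹ ≤ 2 := by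
  have h0 : 1 + x ≠ 0 := by
    intro h
    have h1 : x = -1 := by rw [eq_neg_iff_add_eq_zero, add_comm]; exact h
    rw [h1, hp.neg, hp.one] at hx
    norm_num at hx
  refine ⟨h0, ?_⟩
  have h1 : (1 + x)⁻¹ = 1 + -(x * (1 + x)⁻¹) := by
    have h2 : (1 + x) * (1 + x)⁻¹ = 1 := mul_inv_cancel₀ h0
    rw [add_mul, one_mul] at h2
    exact (sub_eq_of_eq_add h2.symm).symm.trans (sub_eq_add_neg _ _)
  have h2 : p (1 + x)⁻¹ ≤ 1 + p x * p (1 + x)⁻¹ := by
    conv_lhs => rw [h1]
    refine (hp.add _ _).trans ?_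
    rw [hp.one, hp.neg]
    exact add_le_add le_rfl (hp.mul _ _)
  have h3 := hp.nonneg (1 + x)⁻¹
  nlinarith

end pn

section step

variable {K L D : Type} [Field K] [Field L] [Algebra K L] [DivisionRing D] [Algebra K D]
  {m : ℕ} (b : Basis (Fin m) K L)

/-- the polynomial of `θ` -/
def thP (θ : L) : K[X] := (1 + (X : K[X]) • (Algebra.leftMulMatrix b θ).map C).det

/-- the quadratic remainder -/
def thQ (θ : L) : K[X] := (thP b θ).divX.divX

theorem thP_eq {θ : L} (hθ : Algebra.trace K L θ = 1) :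
    thP b θ = 1 + X + thQ b θ * X ^ 2 := by
  have h := Matrix.det_one_add_X_smul (Algebra.leftMulMatrix b θ)
  rw [thQ, thP]
  refine h.trans ?_
  rw [← Algebra.trace_eq_matrix_trace b, hθ, one_smul]

theorem norm_theta {E : Type} [Field E] [Algebra K E] {θ : L} (hθ : Algebra.trace K L θ = 1)
    (s : E) : Algebra.norm E (1 + s ⊗ₜ[K] θ) = 1 + s + aeval s (thQ b θ) * s ^ 2 := by
  have h1 : Algebra.norm E (1 + s ⊗ₜ[K] θ) = aeval s (thP b θ) := by
    rw [Algebra.norm_eq_matrix_det (Algebra.TensorProduct.basis E b), map_add, map_one,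
      leftMul_tmul, thP]
    change _ = ((aeval s : K[X] →ₐ[K] E) : K[X] →+* E) _
    rw [RingHom.map_det]
    congr 1
    ext i j
    rw [RingHom.mapMatrix_apply, Matrix.map_apply, Matrix.add_apply, Matrix.add_apply,
      Matrix.smul_apply, Matrix.smul_apply, Matrix.map_apply, Matrix.map_apply, map_add,
      smul_eq_mul, smul_eq_mul, map_mul, AlgHom.coe_toRingHom, aeval_X, aeval_C, Matrix.one_apply,
      Matrix.one_apply]
    split_ifs <;> simp
  rw [h1, thP_eq b hθ, map_add, map_add, map_mul, map_pow, map_one, aeval_X]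

variable (p : D → ℝ)

/-- the constant of the remainder -/
def cQ (θ : L) : ℝ := ∑ i ∈ (thQ b θ).support, p (algebraMap K D ((thQ b θ).coeff i))

variable {p} (hp : IsPn p)

include hp

theorem cQ_nonneg (θ : L) : 0 ≤ cQ b p θ := Finset.sum_nonneg fun _ _ => hp.nonneg _

theorem aeval_le (θ : L) {x : D} (hx : p x ≤ 1) : p (aeval x (thQ b θ)) ≤ cQ b p θ := by
  rw [aeval_eq_sum_range' (Nat.lt_succ_self _)]
  have h1 : ∑ i ∈ Finset.range (thQ b θ).natDegree.succ, (thQ b θ).coeff i • x ^ i =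
      ∑ i ∈ (thQ b θ).support, (thQ b θ).coeff i • x ^ i := by
    symm
    refine Finset.sum_subset (fun i hi => ?_) fun i _ hi => ?_
    · rw [Finset.mem_range]
      exact Nat.lt_succ_of_le (le_natDegree_of_mem_supp _ hi)
    · rw [notMem_support_iff.mp hi, zero_smul]
  rw [h1]
  refine (hp.sum _ _).trans (Finset.sum_le_sum fun i _ => ?_)
  rw [Algebra.smul_def]
  refine (hp.mul _ _).trans ?_
  have h2 : p (x ^ i) ≤ 1 := (hp.pow x i).trans (pow_le_one₀ (hp.nonneg x) hx)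
  calc p (algebraMap K D ((thQ b θ).coeff i)) * p (x ^ i)
      ≤ p (algebraMap K D ((thQ b θ).coeff i)) * 1 :=
        mul_le_mul_of_nonneg_left h2 (hp.nonneg _)
    _ = _ := mul_one _

/-- one step of the iteration -/
theorem step_norm {θ : L} (hθ : Algebra.trace K L θ = 1) {E : Type} [Field E] [Algebra K E]
    (ι : E →ₐ[K] D) {s : E} (hs : p (ι s) ≤ 1 / (4 * (cQ b p θ + 1))) :
    ∃ s' : E, Algebra.norm E (1 + s ⊗ₜ[K] θ) * (1 + s') = 1 + s ∧ p (ι s') ≤ p (ι s) / 2 := by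
  set Q := cQ b p θ with hQ
  have hQ0 : 0 ≤ Q := cQ_nonneg b hp θ
  have hs0 := hp.nonneg (ι s)
  have hs1 : p (ι s) * (4 * (Q + 1)) ≤ 1 := by
    rwa [le_div_iff₀ (by positivity)] at hs
  have hs2 : p (ι s) ≤ 1 / 4 := by nlinarith
  have hs3 : p (ι s) * Q ≤ 1 / 4 := by nlinarith
  set r : E := aeval s (thQ b θ) with hr
  have hr1 : p (ι r) ≤ Q := by
    rw [hr, ← aeval_algHom_apply]
    exact aeval_le b hp θ (hs2.trans (by norm_num))
  have hx : p (ι (s + r * s ^ 2)) ≤ 1 / 2 := by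
    rw [map_add, map_mul, map_pow]
    refine (hp.add _ _).trans ?_
    have h1 : p (ι r * ι s ^ 2) ≤ Q * p (ι s) ^ 2 :=
      (hp.mul _ _).trans (mul_le_mul hr1 (hp.pow _ _) (hp.nonneg _) hQ0)
    nlinarith
  obtain ⟨hx0, hx1⟩ := hp.inv hx
  have hN : (1 : E) + (s + r * s ^ 2) ≠ 0 := by
    intro h
    apply hx0
    rw [← map_one ι, ← map_add, h, map_zero]
  refine ⟨-(r * s ^ 2 * (1 + (s + r * s ^ 2))⁻¹), ?_, ?_⟩
  · rw [norm_theta b hθ, ← hr]
    have h1 : (1 : E) + s + r * s ^ 2 = 1 + (s + r * s ^ 2) := by ring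
    rw [h1]
    have h2 : (1 + (s + r * s ^ 2)) * (1 + (s + r * s ^ 2))⁻¹ = 1 := mul_inv_cancel₀ hN
    linear_combination -(r * s ^ 2) * h2
  · rw [map_neg, hp.neg, map_mul, map_mul, map_pow]
    have h1 : p (ι r * ι s ^ 2) ≤ Q * p (ι s) ^ 2 :=
      (hp.mul _ _).trans (mul_le_mul hr1 (hp.pow _ _) (hp.nonneg _) hQ0)
    have h2 : ι (1 + (s + r * s ^ 2))⁻¹ = (1 + ι (s + r * s ^ 2))⁻¹ := by
      rw [map_inv₀, map_add, map_one]
    rw [h2]
    have h3 : p (ι r * ι s ^ 2 * (1 + ι (s + r * s ^ 2))⁻¹) ≤ Q * p (ι s) ^ 2 * 2 :=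
      (hp.mul _ _).trans (mul_le_mul h1 hx1 (hp.nonneg _) (by positivity))
    nlinarith

end step

section size

variable {K L D : Type} [Field K] [Field L] [Algebra K L] [DivisionRing D] [Algebra K D]
  {m : ℕ} (b : Basis (Fin m) K L) (p : D → ℝ) {E : Type} [Field E] [Algebra K E] (ι : E →ₐ[K] D)

/-- the size of an element of `E ⊗ L`, read in `D` -/
def qn (Y : E ⊗[K] L) : ℝ := ∑ i, p (ι ((Algebra.TensorProduct.basis E b).repr Y i))

/-- the structure constant -/
def cM : ℝ := ∑ i, ∑ j, ∑ l, p (algebraMap K D (b.repr (b i * b j) l))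

theorem repr_mul_eq (X Y : E ⊗[K] L) (l : Fin m) :
    (Algebra.TensorProduct.basis E b).repr (X * Y) l =
      ∑ i, ∑ j, (Algebra.TensorProduct.basis E b).repr X i *
        ((Algebra.TensorProduct.basis E b).repr Y j * algebraMap K E (b.repr (b i * b j) l)) := by
  have hX := (Algebra.TensorProduct.basis E b).sum_repr X
  have hY := (Algebra.TensorProduct.basis E b).sum_repr Y
  conv_lhs => rw [← hX, ← hY]
  rw [Finset.sum_mul_sum, map_sum, Finsupp.finsetSum_apply]
  refine Finset.sum_congr rfl fun i _ => ?_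
  rw [map_sum, Finsupp.finsetSum_apply]
  refine Finset.sum_congr rfl fun j _ => ?_
  rw [smul_mul_smul_comm, map_smul, Finsupp.smul_apply, Algebra.TensorProduct.basis_apply,
    Algebra.TensorProduct.basis_apply, Algebra.TensorProduct.tmul_mul_tmul, one_mul,
    Algebra.TensorProduct.basis_repr_tmul, one_smul, Finsupp.mapRange_apply, smul_eq_mul,
    mul_assoc]

variable {p} (hp : IsPn p)

include hp

theorem qn_nonneg (Y : E ⊗[K] L) : 0 ≤ qn b p ι Y := Finset.sum_nonneg fun _ _ => hp.nonneg _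

theorem cM_nonneg : 0 ≤ cM (D := D) b p := Finset.sum_nonneg fun _ _ => Finset.sum_nonneg fun _ _ =>
  Finset.sum_nonneg fun _ _ => hp.nonneg _

theorem qn_add (X Y : E ⊗[K] L) : qn b p ι (X + Y) ≤ qn b p ι X + qn b p ι Y := by
  unfold qn
  rw [← Finset.sum_add_distrib]
  refine Finset.sum_le_sum fun i _ => ?_
  rw [map_add, Finsupp.add_apply, map_add]
  exact hp.add _ _

theorem qn_mul (X Y : E ⊗[K] L) :
    qn b p ι (X * Y) ≤ cM (D := D) b p * qn b p ι X * qn b p ι Y := by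
  have h1 : ∀ i, p (ι ((Algebra.TensorProduct.basis E b).repr X i)) ≤ qn b p ι X := fun i =>
    Finset.single_le_sum (f := fun i => p (ι ((Algebra.TensorProduct.basis E b).repr X i)))
      (fun i _ => hp.nonneg _) (Finset.mem_univ i)
  have h2 : ∀ i, p (ι ((Algebra.TensorProduct.basis E b).repr Y i)) ≤ qn b p ι Y := fun i =>
    Finset.single_le_sum (f := fun i => p (ι ((Algebra.TensorProduct.basis E b).repr Y i)))
      (fun i _ => hp.nonneg _) (Finset.mem_univ i)
  have hX0 := qn_nonneg b ι hp X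
  have hY0 := qn_nonneg b ι hp Y
  have h3 : ∀ l, p (ι ((Algebra.TensorProduct.basis E b).repr (X * Y) l)) ≤
      ∑ i, ∑ j, qn b p ι X * (qn b p ι Y * p (algebraMap K D (b.repr (b i * b j) l))) := by
    intro l
    rw [repr_mul_eq b, map_sum]
    refine (hp.sum _ _).trans (Finset.sum_le_sum fun i _ => ?_)
    rw [map_sum]
    refine (hp.sum _ _).trans (Finset.sum_le_sum fun j _ => ?_)
    rw [map_mul, map_mul, ι.commutes]
    refine (hp.mul _ _).trans (mul_le_mul (h1 i) ?_ (hp.nonneg _) hX0)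
    exact (hp.mul _ _).trans (mul_le_mul_of_nonneg_right (h2 j) (hp.nonneg _))
  calc qn b p ι (X * Y) ≤ ∑ l, ∑ i, ∑ j, qn b p ι X *
        (qn b p ι Y * p (algebraMap K D (b.repr (b i * b j) l))) :=
        Finset.sum_le_sum fun l _ => h3 l
    _ = cM (D := D) b p * qn b p ι X * qn b p ι Y := by
        rw [Finset.sum_comm, cM, Finset.sum_mul, Finset.sum_mul]
        refine Finset.sum_congr rfl fun i _ => ?_
        rw [Finset.sum_comm, Finset.sum_mul, Finset.sum_mul]
        refine Finset.sum_congr rfl fun j _ => ?_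
        rw [Finset.sum_mul, Finset.sum_mul]
        refine Finset.sum_congr rfl fun l _ => ?_
        ring

theorem qn_tmul (s : E) (θ : L) :
    qn b p ι (s ⊗ₜ[K] θ) ≤ p (ι s) * ∑ i, p (algebraMap K D (b.repr θ i)) := by
  unfold qn
  rw [Finset.mul_sum]
  refine Finset.sum_le_sum fun i _ => ?_
  rw [Algebra.TensorProduct.basis_repr_tmul, Finsupp.smul_apply, Finsupp.mapRange_apply,
    smul_eq_mul, map_mul, ι.commutes]
  exact hp.mul _ _

/-- **the uniform iteration** -/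
theorem near_iter {θ : L} (hθ : Algebra.trace K L θ = 1) : ∃ ρ A : ℝ, 0 < ρ ∧ 0 < A ∧
    ∀ (E : Type) [Field E] [Algebra K E] (ι : E →ₐ[K] D) (s : E), p (ι s) ≤ ρ → ∀ k : ℕ,
      ∃ (Z : E ⊗[K] L) (s' : E), Algebra.norm E Z * (1 + s') = 1 + s ∧
        p (ι s') ≤ p (ι s) * (1 / 2) ^ k ∧ qn b p ι (Z - 1) ≤ A * p (ι s) * (1 - (1 / 2) ^ k) ∧
        qn b p ι (Z - 1) ≤ 1 := by
  set Q := cQ b p θ with hQ
  have hQ0 : 0 ≤ Q := cQ_nonneg b hp θ
  set M := cM (D := D) b p with hM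
  have hM0 : 0 ≤ M := cM_nonneg b hp
  set Θ : ℝ := ∑ i, p (algebraMap K D (b.repr θ i)) with hΘ
  have hΘ0 : 0 ≤ Θ := Finset.sum_nonneg fun _ _ => hp.nonneg _
  set q₁ : ℝ := ∑ i, p (algebraMap K D (b.repr 1 i)) with hq₁
  have hq₁0 : 0 ≤ q₁ := Finset.sum_nonneg fun _ _ => hp.nonneg _
  set A : ℝ := 2 * (M * (q₁ + 1) * Θ + 1) with hA
  have hA0 : 0 < A := by positivity
  refine ⟨min (1 / (4 * (Q + 1))) (1 / A), A, by positivity, hA0, fun E _ _ ι s hs k => ?_⟩
  have hs1 : p (ι s) ≤ 1 / (4 * (Q + 1)) := hs.trans (min_le_left _ _)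
  have hs2 : A * p (ι s) ≤ 1 := by
    have h1 := hs.trans (min_le_right _ _)
    rw [le_div_iff₀ hA0] at h1
    linarith
  have hs0 := hp.nonneg (ι s)
  have hone : qn b p ι (1 : E ⊗[K] L) ≤ q₁ := by
    have h1 := qn_tmul b ι hp (1 : E) (1 : L)
    rw [map_one, hp.one, one_mul] at h1
    exact h1
  induction k with
  | zero =>
    refine ⟨1, s, by rw [map_one, one_mul], by rw [pow_zero, mul_one], ?_, ?_⟩
    · rw [sub_self, pow_zero, sub_self, mul_zero]
      unfold qn
      simp [hp.zero]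
    · rw [sub_self]
      unfold qn
      simp [hp.zero]
  | succ k ih =>
    obtain ⟨Z, s', hZ, hs', hZ1, hZ2⟩ := ih
    have hpow : (0 : ℝ) < (1 / 2) ^ k := by positivity
    have hpow1 : ((1 : ℝ) / 2) ^ k ≤ 1 := pow_le_one₀ (by norm_num) (by norm_num)
    have hs's : p (ι s') ≤ p (ι s) := hs'.trans (by nlinarith)
    obtain ⟨s'', hs'', hs''2⟩ := step_norm b hp hθ ι (hs's.trans hs1)
    have hdiff : qn b p ι (Z * (s' ⊗ₜ[K] θ)) ≤ A * p (ι s) * ((1 / 2) ^ k / 2) := by
      have h1 := qn_mul b ι hp Z (s' ⊗ₜ[K] θ)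
      have h2 := qn_tmul b ι hp s' θ
      have h3 : qn b p ι Z ≤ q₁ + 1 := by
        have h4 := qn_add b ι hp (Z - 1) 1
        rw [sub_add_cancel] at h4
        linarith
      have h5 : qn b p ι (Z * (s' ⊗ₜ[K] θ)) ≤ M * (q₁ + 1) * (p (ι s') * Θ) :=
        h1.trans (mul_le_mul (mul_le_mul_of_nonneg_left h3 hM0) h2 (qn_nonneg b ι hp _)
          (by positivity))
      refine h5.trans ?_
      have h6 : M * (q₁ + 1) * (p (ι s') * Θ) = (M * (q₁ + 1) * Θ) * p (ι s') := by ring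
      rw [h6]
      have h7 : (M * (q₁ + 1) * Θ) * p (ι s') ≤ (M * (q₁ + 1) * Θ) * (p (ι s) * (1 / 2) ^ k) :=
        mul_le_mul_of_nonneg_left hs' (by positivity)
      refine h7.trans ?_
      rw [hA]
      have h8 : 0 ≤ p (ι s) * (1 / 2) ^ k := by positivity
      nlinarith
    have hfin : qn b p ι (Z * (1 + s' ⊗ₜ[K] θ) - 1) ≤
        A * p (ι s) * (1 - (1 / 2) ^ (k + 1)) := by
      have h1 : Z * (1 + s' ⊗ₜ[K] θ) - 1 = (Z - 1) + Z * (s' ⊗ₜ[K] θ) := by ring
      rw [h1]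
      refine (qn_add b ι hp _ _).trans ((add_le_add hZ1 hdiff).trans (le_of_eq ?_))
      rw [pow_succ]
      ring
    refine ⟨Z * (1 + s' ⊗ₜ[K] θ), s'', ?_, ?_, hfin, ?_⟩
    · rw [map_mul, mul_assoc, hs'', hZ]
    · refine hs''2.trans ?_
      rw [pow_succ]
      linarith
    · refine hfin.trans ?_
      have h1 : (0 : ℝ) < (1 / 2) ^ (k + 1) := by positivity
      have h2 : 0 ≤ A * p (ι s) := by positivity
      nlinarith

end size

end

end Vale.Agent.P011.H525.Cyc
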