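import Vale.Agent.P011.H525.Cyc.NearD

/-!
# The near form of the norm theorem for `E ⊗ L`, uniformly in `E`
-/

open Module TensorProduct Polynomial

set_option linter.unusedSectionVars false

namespace Vale.Agent.P011.H525.Cyc

noncomputable section

section coord

variable {K L E C : Type} [Field K] [Field L] [Field E] [Field C] [Algebra K L] [Algebra K E]
  [Algebra E C] [Algebra K C] [IsScalarTower K E C] {m : ℕ} (b : Basis (Fin m) K L)
  (τ : L →ₐ[K] C) [IsGalois K L] [FiniteDimensional K L]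

/-- the coordinates are linear forms in the values -/
theorem exists_coord_form : ∃ ν : (L ≃ₐ[K] L) → Fin m → L, ∀ (Y : E ⊗[K] L) (j : Fin m),
    algebraMap E C ((Algebra.TensorProduct.basis E b).repr Y j) =
      ∑ g : L ≃ₐ[K] L, τ (ν g j) * pg τ g Y := by
  classical
  let e : (L ≃ₐ[K] L) ≃ Fin m := Fintype.equivFinOfCardEq (card_gal b)
  have hd := emb_det b e
  set W : Matrix (Fin m) (Fin m) L := Matrix.of fun i j => (e.symm i) (b j) with hW
  have hu : IsUnit W.det := isUnit_iff_ne_zero.mpr hd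
  refine ⟨fun g j => W⁻¹ j (e g), fun Y j => ?_⟩
  have h1 : ∀ g, pg τ g Y = ∑ l, algebraMap E C ((Algebra.TensorProduct.basis E b).repr Y l) *
      τ (g (b l)) := by
    intro g
    conv_lhs => rw [← (Algebra.TensorProduct.basis E b).sum_repr Y]
    rw [map_sum]
    refine Finset.sum_congr rfl fun l _ => ?_
    rw [map_smul, Algebra.TensorProduct.basis_apply, pg_tmul, map_one, one_mul, Algebra.smul_def]
  simp_rw [h1, Finset.mul_sum]
  rw [Finset.sum_comm]
  have h2 : ∀ l, ∑ g : L ≃ₐ[K] L, τ (W⁻¹ j (e g)) *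
      (algebraMap E C ((Algebra.TensorProduct.basis E b).repr Y l) * τ (g (b l))) =
      if j = l then algebraMap E C ((Algebra.TensorProduct.basis E b).repr Y l) else 0 := by
    intro l
    have h3 : (W⁻¹ * W) j l = (1 : Matrix (Fin m) (Fin m) L) j l := by
      rw [Matrix.nonsing_inv_mul W hu]
    rw [Matrix.mul_apply, Matrix.one_apply] at h3
    have h4 : ∑ g : L ≃ₐ[K] L, W⁻¹ j (e g) * g (b l) = if j = l then 1 else 0 := by
      rw [← h3, ← e.sum_comp]
      refine Finset.sum_congr rfl fun g _ => ?_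
      rw [hW, Matrix.of_apply, Equiv.symm_apply_apply]
    have h5 := congrArg τ h4
    rw [map_sum] at h5
    calc ∑ g : L ≃ₐ[K] L, τ (W⁻¹ j (e g)) *
          (algebraMap E C ((Algebra.TensorProduct.basis E b).repr Y l) * τ (g (b l)))
        = algebraMap E C ((Algebra.TensorProduct.basis E b).repr Y l) *
          ∑ g : L ≃ₐ[K] L, τ (W⁻¹ j (e g) * g (b l)) := by
          rw [Finset.mul_sum]
          refine Finset.sum_congr rfl fun g _ => ?_
          rw [map_mul]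
          ring
      _ = _ := by
          rw [h5]
          split_ifs <;> simp
  simp_rw [h2]
  simp

/-- small values give small coordinates -/
theorem coord_small {ι : Type} [Fintype ι] (w : ι → AbsoluteValue C ℝ) {δ : ℝ} (hδ : 0 < δ) :
    ∃ η : ℝ, 0 < η ∧ ∀ R : E ⊗[K] L, (∀ g i, w i (pg τ g R) < η) → ∀ j i,
      w i (algebraMap E C ((Algebra.TensorProduct.basis E b).repr R j)) < δ := by
  classical
  obtain ⟨ν, hν⟩ := exists_coord_form (E := E) b τ
  set C₁ : ℝ := 1 + ∑ i : ι, ∑ j : Fin m, ∑ g : L ≃ₐ[K] L, w i (τ (ν g j)) with hC₁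
  have hnn : 0 ≤ ∑ i : ι, ∑ j : Fin m, ∑ g : L ≃ₐ[K] L, w i (τ (ν g j)) :=
    Finset.sum_nonneg fun _ _ => Finset.sum_nonneg fun _ _ => Finset.sum_nonneg fun _ _ =>
      AbsoluteValue.nonneg _ _
  have hC₁1 : 1 ≤ C₁ := by rw [hC₁]; linarith
  have hle : ∀ i j, ∑ g : L ≃ₐ[K] L, w i (τ (ν g j)) ≤ C₁ := by
    intro i j
    have h1 : ∑ g : L ≃ₐ[K] L, w i (τ (ν g j)) ≤ ∑ j : Fin m, ∑ g : L ≃ₐ[K] L, w i (τ (ν g j)) :=
      Finset.single_le_sum (f := fun j => ∑ g : L ≃ₐ[K] L, w i (τ (ν g j)))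
        (fun j _ => Finset.sum_nonneg fun g _ => (w i).nonneg _) (Finset.mem_univ j)
    have h2 : ∑ j : Fin m, ∑ g : L ≃ₐ[K] L, w i (τ (ν g j)) ≤
        ∑ i : ι, ∑ j : Fin m, ∑ g : L ≃ₐ[K] L, w i (τ (ν g j)) :=
      Finset.single_le_sum (f := fun i : ι => ∑ j : Fin m, ∑ g : L ≃ₐ[K] L, w i (τ (ν g j)))
        (fun i _ => Finset.sum_nonneg fun j _ => Finset.sum_nonneg fun g _ => (w i).nonneg _)
        (Finset.mem_univ i)
    rw [hC₁]
    linarith
  refine ⟨δ / (2 * C₁), by positivity, fun R hR j i => ?_⟩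
  rw [hν]
  have h1 : w i (∑ g : L ≃ₐ[K] L, τ (ν g j) * pg τ g R) ≤ C₁ * (δ / (2 * C₁)) := by
    refine ((w i).sum_le _ _).trans ?_
    refine le_trans (Finset.sum_le_sum fun g _ => ?_)
      ((Finset.sum_mul _ _ _).symm.le.trans
        (mul_le_mul_of_nonneg_right (hle i j) (by positivity)))
    rw [map_mul]
    exact mul_le_mul_of_nonneg_left (hR g i).le ((w i).nonneg _)
  have h2 : C₁ * (δ / (2 * C₁)) = δ / 2 := by
    have : C₁ ≠ 0 := by positivity
    field_simp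
  rw [h2] at h1
  linarith

end coord

/-- the places of a field containing `E` and `L`, compared with the norm of `D` -/
def Adm {K L D E : Type} [Field K] [Field L] [Algebra K L] [DivisionRing D] [Algebra K D]
    [Field E] [Algebra K E] (p : D → ℝ) (ι : E →ₐ[K] D) : Prop :=
  ∃ (C : Type) (_ : Field C) (_ : Algebra E C) (_ : Algebra K C) (_ : IsScalarTower K E C)
    (_ : L →ₐ[K] C) (κ : Type) (_ : Fintype κ) (_ : Nonempty κ) (w : κ → AbsoluteValue C ℝ),
    (∀ η : ℝ, 0 < η → ∃ δ : ℝ, 0 < δ ∧ ∀ x : E, p (ι x) < δ → ∀ i, w i (algebraMap E C x) < η) ∧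
    ∀ δ : ℝ, 0 < δ → ∃ η : ℝ, 0 < η ∧ ∀ x : E, (∀ i, w i (algebraMap E C x) < η) → p (ι x) < δ

/-- **the near form**: a norm `u` near one is the norm of an element near one; the radius depends
only on `D`, `p`, `L` and the basis. -/
theorem near_form {K L D : Type} [Field K] [Infinite K] [Field L] [Algebra K L]
    [DivisionRing D] [Algebra K D] [IsGalois K L] [FiniteDimensional K L] {m : ℕ}
    (b : Basis (Fin m) K L) {σ : L ≃ₐ[K] L} (hσ : ∀ g : L ≃ₐ[K] L, g ∈ Subgroup.zpowers σ)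
    {p : D → ℝ} (hp : IsPn p) {ε : ℝ} (hε : 0 < ε) :
    ∃ δ : ℝ, 0 < δ ∧ ∀ (E : Type) [Field E] [Algebra K E] (ι : E →ₐ[K] D),
      Adm (L := L) p ι → ∀ u : E, p (ι u - 1) < δ →
      (∃ y : Fin m → E, nfm b (algebraMap K E) y = u) →
      ∃ y : Fin m → E, nfm b (algebraMap K E) y = u ∧
        ∀ i, p (ι (y i) - algebraMap K D (b.repr 1 i)) < ε := by
  classical
  obtain ⟨θ, hθ⟩ := Algebra.trace_surjective K L 1
  obtain ⟨ρ, A, hρ, hA, hit⟩ := near_iter b hp hθ
  set M := cM (D := D) b p with hM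
  have hM0 : 0 ≤ M := cM_nonneg b hp
  set q₁ : ℝ := ∑ i, p (algebraMap K D (b.repr 1 i)) with hq₁
  have hq₁0 : 0 ≤ q₁ := Finset.sum_nonneg fun _ _ => hp.nonneg _
  refine ⟨min (min ρ (ε / (2 * A))) (1 / 2), by positivity, fun E _ _ ι hAdm u hu hy => ?_⟩
  obtain ⟨y₀, hy₀⟩ := hy
  obtain ⟨C, _, _, _, _, τ, κ, _, _, w, hα, hβ⟩ := hAdm
  have hu1 : p (ι (u - 1)) < min (min ρ (ε / (2 * A))) (1 / 2) := by
    rwa [map_sub, map_one]
  have hu0 : u ≠ 0 := by
    intro h
    rw [h, zero_sub, map_neg, map_one, hp.neg, hp.one] at hu1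
    have := hu1.trans_le (min_le_right _ _)
    norm_num at this
  set s : E := u - 1 with hs
  have hsρ : p (ι s) ≤ ρ := (hu1.trans_le ((min_le_left _ _).trans (min_le_left _ _))).le
  have hsε : A * p (ι s) ≤ ε / 2 := by
    have h1 := (hu1.trans_le ((min_le_left _ _).trans (min_le_right _ _))).le
    rw [le_div_iff₀ (by positivity)] at h1
    linarith
  -- the target size of the correction
  set δ₁ : ℝ := ε / (2 * ((m : ℝ) + 1) * (M * (q₁ + 1) + 1)) with hδ₁
  have hδ₁0 : 0 < δ₁ := by positivity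
  obtain ⟨η₁, hη₁, hβ₁⟩ := hβ δ₁ hδ₁0
  obtain ⟨η₂, hη₂, hco⟩ := coord_small (E := E) b τ w hη₁
  obtain ⟨η₃, hη₃, hcore⟩ := near_core (E := E) τ σ w hσ hη₂
  obtain ⟨δ₂, hδ₂, hα₂⟩ := hα η₃ hη₃
  -- the number of steps
  obtain ⟨k, hk⟩ : ∃ k : ℕ, p (ι s) * (1 / 2) ^ k < δ₂ := by
    obtain ⟨k, hk⟩ := exists_pow_lt_of_lt_one (show 0 < δ₂ / (p (ι s) + 1) by
      have := hp.nonneg (ι s)
      positivity) (show (1 / 2 : ℝ) < 1 by norm_num)
    refine ⟨k, ?_⟩
    have h0 := hp.nonneg (ι s)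
    rw [lt_div_iff₀ (by positivity)] at hk
    have h1 : (0 : ℝ) < (1 / 2) ^ k := by positivity
    nlinarith
  obtain ⟨Z, s', hZ, hs', hZ1, hZ2⟩ := hit E ι s hsρ k
  have hnY : Algebra.norm E (∑ i, y₀ i ⊗ₜ[K] b i) = u := by rw [norm_sum_tmul, hy₀]
  have h1s : (1 : E) + s = u := by rw [hs]; ring
  obtain ⟨R, hR, hnR⟩ := hcore (∑ i, y₀ i ⊗ₜ[K] b i) Z s' (by rw [hZ, hnY, h1s])
    (by rw [hnY]; exact hu0) (hα₂ s' (hs'.trans_lt hk))
  rw [hnY] at hnR
  refine ⟨fun i => (Algebra.TensorProduct.basis E b).repr (Z * (1 + R)) i, ?_, fun i => ?_⟩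
  · rw [← hnR, ← norm_sum_tmul]
    congr 1
    conv_rhs => rw [← (Algebra.TensorProduct.basis E b).sum_repr (Z * (1 + R))]
    refine Finset.sum_congr rfl fun j _ => ?_
    rw [Algebra.TensorProduct.basis_apply, TensorProduct.smul_tmul', smul_eq_mul, mul_one]
  · have hRq : qn b p ι R ≤ m * δ₁ := by
      unfold qn
      refine (Finset.sum_le_card_nsmul _ _ δ₁ fun j _ => ?_).trans ?_
      · exact (hβ₁ _ fun i => hco R hR j i).le
      · rw [Finset.card_univ, Fintype.card_fin, nsmul_eq_mul]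
    have hone : qn b p ι (1 : E ⊗[K] L) ≤ q₁ := by
      have h1 := qn_tmul b ι hp (1 : E) (1 : L)
      rw [map_one, hp.one, one_mul] at h1
      exact h1
    have hZq : qn b p ι Z ≤ q₁ + 1 := by
      have h4 := qn_add b ι hp (Z - 1) 1
      rw [sub_add_cancel] at h4
      linarith
    have hZR : qn b p ι (Z * R) ≤ M * (q₁ + 1) * (m * δ₁) :=
      (qn_mul b ι hp Z R).trans (mul_le_mul (mul_le_mul_of_nonneg_left hZq hM0) hRq
        (qn_nonneg b ι hp _) (by positivity))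
    have hZR2 : M * (q₁ + 1) * (m * δ₁) < ε / 2 := by
      have h1 : (2 * ((m : ℝ) + 1) * (M * (q₁ + 1) + 1)) * δ₁ = ε := by
        rw [hδ₁]
        field_simp
      have h2 : 0 ≤ M * (q₁ + 1) := by positivity
      have h3 : (0 : ℝ) ≤ m := Nat.cast_nonneg m
      have h4 : M * (q₁ + 1) * (m * δ₁) * 2 + 2 * ((m * δ₁) + (M * (q₁ + 1)) * δ₁ + δ₁) = ε := by
        rw [← h1]
        ring
      have h5 : 0 ≤ (m : ℝ) * δ₁ := by positivity
      have h6 : 0 ≤ (M * (q₁ + 1)) * δ₁ := by positivity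
      linarith
    have hZs : qn b p ι (Z - 1) ≤ ε / 2 := by
      refine hZ1.trans ?_
      have h1 : (0 : ℝ) < (1 / 2) ^ k := by positivity
      have h2 : 0 ≤ A * p (ι s) := mul_nonneg hA.le (hp.nonneg _)
      nlinarith
    have htot : qn b p ι (Z * (1 + R) - 1) < ε := by
      have h1 : Z * (1 + R) - 1 = (Z - 1) + Z * R := by ring
      rw [h1]
      have h2 := qn_add b ι hp (Z - 1) (Z * R)
      linarith
    refine lt_of_le_of_lt ?_ htot
    have h1 : ι ((Algebra.TensorProduct.basis E b).repr (Z * (1 + R)) i) -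
        algebraMap K D (b.repr 1 i) =
        ι ((Algebra.TensorProduct.basis E b).repr (Z * (1 + R) - 1) i) := by
      rw [map_sub, Finsupp.sub_apply, map_sub]
      congr 1
      have h2 : (1 : E ⊗[K] L) = (1 : E) ⊗ₜ[K] (1 : L) := rfl
      rw [h2, Algebra.TensorProduct.basis_repr_tmul, one_smul, Finsupp.mapRange_apply, ι.commutes]
    rw [h1]
    exact Finset.single_le_sum
      (f := fun j => p (ι ((Algebra.TensorProduct.basis E b).repr (Z * (1 + R) - 1) j)))
      (fun j _ => hp.nonneg _) (Finset.mem_univ i)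

end

end Vale.Agent.P011.H525.Cyc
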