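import Mathlib

/-!
# The norm form of a Galois extension and the algebra `E ⊗ L`

`L / K` is a finite Galois extension with basis `b`, `nfm b φ y` is the norm of the element
`∑ y i ⊗ b i` of `F ⊗ L`.  For a field `C` which contains `E` and `L`, the homomorphisms
`pg τ g : E ⊗ L → C` separate the points and the norm is the product of the images.
-/

open Module TensorProduct

set_option linter.unusedSectionVars false

namespace Vale.Agent.P011.H525.Cyc

noncomputable section

section form

variable {K L : Type} [Field K] [Field L] [Algebra K L] {m : ℕ} (b : Basis (Fin m) K L)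

/-- **the norm form** of `L / K`, over a commutative ring `F` -/
def nfm {F : Type} [CommRing F] (φ : K →+* F) (y : Fin m → F) : F :=
  (∑ i, y i • (Algebra.leftMulMatrix b (b i)).map φ).det

theorem nfm_map {F F' : Type} [CommRing F] [CommRing F'] (φ : K →+* F) (ψ : F →+* F')
    (y : Fin m → F) : ψ (nfm b φ y) = nfm b (ψ.comp φ) (fun i => ψ (y i)) := by
  unfold nfm
  rw [RingHom.map_det]
  congr 1
  ext i j
  simp [Matrix.sum_apply]

theorem leftMul_tmul {F : Type} [Field F] [Algebra K F] (y : F) (l : L) :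
    Algebra.leftMulMatrix (Algebra.TensorProduct.basis F b) (y ⊗ₜ[K] l) =
      y • (Algebra.leftMulMatrix b l).map (algebraMap K F) := by
  ext i j
  rw [Algebra.leftMulMatrix_eq_repr_mul, Algebra.TensorProduct.basis_apply,
    Algebra.TensorProduct.tmul_mul_tmul, mul_one, Algebra.TensorProduct.basis_repr_tmul,
    Matrix.smul_apply, Matrix.map_apply, Algebra.leftMulMatrix_eq_repr_mul]
  simp

theorem norm_sum_tmul {F : Type} [Field F] [Algebra K F] (y : Fin m → F) :
    Algebra.norm F (∑ i, y i ⊗ₜ[K] b i) = nfm b (algebraMap K F) y := by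
  rw [Algebra.norm_eq_matrix_det (Algebra.TensorProduct.basis F b), map_sum]
  simp_rw [leftMul_tmul]
  rfl

theorem exists_coord {F : Type} [Field F] [Algebra K F] (Y : F ⊗[K] L) :
    ∃ y : Fin m → F, Y = ∑ i, y i ⊗ₜ[K] b i := by
  refine ⟨fun i => (Algebra.TensorProduct.basis F b).repr Y i, ?_⟩
  conv_lhs => rw [← (Algebra.TensorProduct.basis F b).sum_repr Y]
  refine Finset.sum_congr rfl fun i _ => ?_
  rw [Algebra.TensorProduct.basis_apply, TensorProduct.smul_tmul', smul_eq_mul, mul_one]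

end form

section galois

variable {K L : Type} [Field K] [Field L] [Algebra K L] {m : ℕ} (b : Basis (Fin m) K L)

theorem emb_indep [FiniteDimensional K L] (a : (L ≃ₐ[K] L) → L)
    (h : ∀ j, ∑ g : L ≃ₐ[K] L, a g * g (b j) = 0) : a = 0 := by
  have h1 : LinearIndependent L fun g : L ≃ₐ[K] L => ((g : L →ₐ[K] L).toLinearMap : L →ₗ[K] L) := by
    have h2 := linearIndependent_toLinearMap K L L
    exact h2.comp (fun g : L ≃ₐ[K] L => (g : L →ₐ[K] L)) fun g g' hg => by
      ext x
      exact DFunLike.congr_fun hg x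
  rw [Fintype.linearIndependent_iff] at h1
  funext g
  refine h1 a ?_ g
  refine b.ext fun j => ?_
  rw [LinearMap.sum_apply, LinearMap.zero_apply, ← h j]
  rfl

theorem card_gal [IsGalois K L] [FiniteDimensional K L] (b : Basis (Fin m) K L) :
    Fintype.card (L ≃ₐ[K] L) = m := by
  rw [← Nat.card_eq_fintype_card, IsGalois.card_aut_eq_finrank, Module.finrank_eq_card_basis b,
    Fintype.card_fin]

theorem emb_det [FiniteDimensional K L] (e : (L ≃ₐ[K] L) ≃ Fin m) :
    (Matrix.of fun i j => (e.symm i) (b j)).det ≠ 0 := by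
  intro h
  obtain ⟨v, hv, hv0⟩ := Matrix.exists_vecMul_eq_zero_iff.mpr h
  refine hv ?_
  have h1 := emb_indep b (fun g => v (e g)) (fun j => by
    have h2 := congrFun hv0 j
    rw [← e.symm.sum_comp]
    simpa [Matrix.vecMul, dotProduct] using h2)
  funext i
  have := congrFun h1 (e.symm i)
  simpa using this

open Classical in
/-- the dual vectors: `∑ j, μ j * g (b j)` is one for `g = 1` and zero otherwise -/
theorem exists_dual [IsGalois K L] [FiniteDimensional K L] :
    ∃ μ : Fin m → L, ∀ g : L ≃ₐ[K] L, ∑ j, μ j * g (b j) = if g = 1 then 1 else 0 := by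
  let e : (L ≃ₐ[K] L) ≃ Fin m := Fintype.equivFinOfCardEq (card_gal b)
  have hd := emb_det b e
  set W : Matrix (Fin m) (Fin m) L := Matrix.of fun i j => (e.symm i) (b j) with hW
  have hu : IsUnit W.det := isUnit_iff_ne_zero.mpr hd
  refine ⟨fun j => W⁻¹ j (e 1), fun g => ?_⟩
  have h1 : (W * W⁻¹) (e g) (e 1) = (1 : Matrix (Fin m) (Fin m) L) (e g) (e 1) := by
    rw [Matrix.mul_nonsing_inv W hu]
  rw [Matrix.mul_apply, Matrix.one_apply] at h1
  simp only [EmbeddingLike.apply_eq_iff_eq] at h1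
  rw [← h1]
  refine Finset.sum_congr rfl fun j _ => ?_
  rw [hW, Matrix.of_apply, Equiv.symm_apply_apply, mul_comm]

variable {C : Type} [Field C] (τ : L →+* C)

/-- **the norm form as a product over the Galois group** -/
theorem nfm_eq_prod [IsGalois K L] [FiniteDimensional K L] (φ : K →+* C)
    (hφ : ∀ c, φ c = τ (algebraMap K L c)) (y : Fin m → C) :
    nfm b φ y = ∏ g : L ≃ₐ[K] L, ∑ j, y j * τ (g (b j)) := by
  classical
  let e : (L ≃ₐ[K] L) ≃ Fin m := Fintype.equivFinOfCardEq (card_gal b)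
  have hd := emb_det b e
  set W : Matrix (Fin m) (Fin m) L := Matrix.of fun i j => (e.symm i) (b j) with hW
  set V : Matrix (Fin m) (Fin m) C := W.map τ with hV
  have hVd : V.det ≠ 0 := by
    have h1 : V.det = τ W.det := by rw [hV, RingHom.map_det]; rfl
    rw [h1]
    exact (map_ne_zero τ).mpr hd
  have h1 : ∀ l : L, V * (Algebra.leftMulMatrix b l).map φ =
      Matrix.diagonal (fun i => τ ((e.symm i) l)) * V := by
    intro l
    ext i j
    rw [Matrix.diagonal_mul, Matrix.mul_apply]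
    simp only [hV, hW, Matrix.map_apply, Matrix.of_apply]
    rw [← map_mul, ← map_mul]
    have h2 : l * b j = ∑ r, Algebra.leftMulMatrix b l r j • b r := by
      conv_lhs => rw [← b.sum_repr (l * b j)]
      refine Finset.sum_congr rfl fun r _ => ?_
      rw [Algebra.leftMulMatrix_eq_repr_mul]
    rw [h2, map_sum, map_sum]
    refine Finset.sum_congr rfl fun r _ => ?_
    rw [hφ, ← map_mul]
    congr 1
    rw [map_smul, Algebra.smul_def, mul_comm]
  have h3 : V * (∑ i, y i • (Algebra.leftMulMatrix b (b i)).map φ) =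
      Matrix.diagonal (fun i => ∑ j, y j * τ ((e.symm i) (b j))) * V := by
    rw [Matrix.mul_sum]
    simp_rw [Matrix.mul_smul, h1]
    ext i j
    rw [Matrix.sum_apply, Matrix.diagonal_mul, Finset.sum_mul]
    refine Finset.sum_congr rfl fun r _ => ?_
    rw [Matrix.smul_apply, Matrix.diagonal_mul, smul_eq_mul, mul_assoc]
  have h4 := congrArg Matrix.det h3
  rw [Matrix.det_mul, Matrix.det_mul, Matrix.det_diagonal, mul_comm] at h4
  have h5 := mul_right_cancel₀ hVd h4
  unfold nfm
  rw [h5]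
  exact Equiv.prod_comp e.symm (fun g : L ≃ₐ[K] L => ∑ j, y j * τ (g (b j)))

end galois

section alg

variable {K L E C : Type} [Field K] [Field L] [Field E] [Field C] [Algebra K L] [Algebra K E]
  [Algebra E C] [Algebra K C] [IsScalarTower K E C] {m : ℕ} (b : Basis (Fin m) K L)
  (τ : L →ₐ[K] C)

/-- the homomorphism `e ⊗ l ↦ e τ (g l)` -/
def pg (g : L ≃ₐ[K] L) : E ⊗[K] L →ₐ[E] C :=
  Algebra.TensorProduct.lift (Algebra.ofId E C) (τ.comp (g : L →ₐ[K] L)) fun _ _ => Commute.all _ _

theorem pg_tmul (g : L ≃ₐ[K] L) (x : E) (l : L) :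
    pg τ g (x ⊗ₜ[K] l) = algebraMap E C x * τ (g l) := by
  rw [pg, Algebra.TensorProduct.lift_tmul]
  rfl

theorem pg_sum (g : L ≃ₐ[K] L) (y : Fin m → E) :
    pg τ g (∑ i, y i ⊗ₜ[K] b i) = ∑ j, algebraMap E C (y j) * τ (g (b j)) := by
  rw [map_sum]
  exact Finset.sum_congr rfl fun i _ => pg_tmul τ g _ _

theorem norm_eq_prod [IsGalois K L] [FiniteDimensional K L] (Y : E ⊗[K] L) :
    algebraMap E C (Algebra.norm E Y) = ∏ g : L ≃ₐ[K] L, pg τ g Y := by
  obtain ⟨b⟩ : Nonempty (Basis (Fin (finrank K L)) K L) := ⟨Module.finBasis K L⟩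
  obtain ⟨y, rfl⟩ := exists_coord b Y
  rw [norm_sum_tmul, nfm_map, nfm_eq_prod b (τ : L →+* C) _ (fun c => by
    rw [RingHom.comp_apply, ← IsScalarTower.algebraMap_apply K E C]
    exact (τ.commutes c).symm)]
  refine Finset.prod_congr rfl fun g _ => ?_
  rw [pg_sum]
  rfl

theorem pg_inj [IsGalois K L] [FiniteDimensional K L] {Y : E ⊗[K] L}
    (h : ∀ g, pg τ g Y = 0) : Y = 0 := by
  classical
  obtain ⟨b⟩ : Nonempty (Basis (Fin (finrank K L)) K L) := ⟨Module.finBasis K L⟩
  obtain ⟨y, rfl⟩ := exists_coord b Y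
  let e : (L ≃ₐ[K] L) ≃ Fin (finrank K L) := Fintype.equivFinOfCardEq (card_gal b)
  have hd := emb_det b e
  set W : Matrix (Fin (finrank K L)) (Fin (finrank K L)) L :=
    Matrix.of fun i j => (e.symm i) (b j) with hW
  have hVd : (W.map (τ : L →+* C)).det ≠ 0 := by
    have h1 : (W.map (τ : L →+* C)).det = (τ : L →+* C) W.det := by rw [RingHom.map_det]; rfl
    rw [h1]
    exact (map_ne_zero (τ : L →+* C)).mpr hd
  have h2 : (W.map (τ : L →+* C)).mulVec (fun j => algebraMap E C (y j)) = 0 := by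
    funext i
    have h3 := h (e.symm i)
    rw [pg_sum] at h3
    rw [Pi.zero_apply, ← h3, Matrix.mulVec, dotProduct]
    refine Finset.sum_congr rfl fun j _ => ?_
    rw [mul_comm]
    rfl
  have h4 := Matrix.eq_zero_of_mulVec_eq_zero hVd h2
  refine Finset.sum_eq_zero fun j _ => ?_
  have h5 : y j = 0 := by
    have := congrFun h4 j
    exact (map_eq_zero (algebraMap E C)).mp this
  rw [h5, TensorProduct.zero_tmul]

theorem pg_ext [IsGalois K L] [FiniteDimensional K L] {Y Z : E ⊗[K] L}
    (h : ∀ g, pg τ g Y = pg τ g Z) : Y = Z := by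
  rw [← sub_eq_zero]
  refine pg_inj τ fun g => ?_
  rw [map_sub, h g, sub_self]

variable (E) in
/-- the action of the Galois group -/
def sM (g : L ≃ₐ[K] L) : E ⊗[K] L ≃ₐ[E] E ⊗[K] L :=
  Algebra.TensorProduct.congr (AlgEquiv.refl : E ≃ₐ[E] E) g

theorem sM_tmul (g : L ≃ₐ[K] L) (x : E) (l : L) : sM E g (x ⊗ₜ[K] l) = x ⊗ₜ[K] g l := by
  rw [sM, Algebra.TensorProduct.congr_apply, Algebra.TensorProduct.map_tmul]
  rfl

theorem pg_sM (g h : L ≃ₐ[K] L) (Y : E ⊗[K] L) : pg τ g (sM E h Y) = pg τ (g * h) Y := by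
  induction Y using TensorProduct.induction_on with
  | zero => simp
  | tmul x l => rw [sM_tmul, pg_tmul, pg_tmul]; rfl
  | add x y hx hy => rw [map_add, map_add, map_add, hx, hy]

theorem norm_sM (g : L ≃ₐ[K] L) (Y : E ⊗[K] L) :
    Algebra.norm E (sM E g Y) = Algebra.norm E Y :=
  Algebra.norm_eq_of_algEquiv (sM E g).symm _ |>.symm.trans (by rw [AlgEquiv.symm_apply_apply])

end alg

end

end Vale.Agent.P011.H525.Cyc
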